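import Crest.Agent.X212.Prd34.Rng
import Crest.Agent.R096.Gn2_296
import Crest.Agent.X212.Sol49.Fill
import Crest.Agent.R096.P2f_241
import Crest.Agent.R105.Iod1_690

-- ▼ part X212/Prd34/Blk1
section

/-!
# X212 / T layer: the four-sided torus, solid torus blocks (`k = 1`) (helper34)
-/

set_option autoImplicit false

open Set Metric Topology

namespace Crest.Agent.X212.Prd34

open Crest.Agent.R096.Ce_537 Crest.Agent.X212.Lad50
open Crest.Agent.X212.Sol49 (Tor)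

/-- the rectangle `[t,t'] × [c,c+1]` and its boundary -/
def rct (t t' c : ℝ) : Set P := {z | z 0 ∈ Icc t t' ∧ z 1 ∈ Icc c (c + 1)}
def drct (t t' c : ℝ) : Set P :=
  {z | z ∈ rct t t' c ∧ (z 1 = c ∨ z 1 = c + 1 ∨ z 0 = t ∨ z 0 = t')}

lemma isBall_rct {t t' : ℝ} (h : t < t') (c : ℝ) : IsBall 2 (rct t t' c) (drct t t' c) := by
  have e : rct t t' c = Icc ![t, c] ![t', c + 1] := by
    ext z
    simp only [rct, mem_Icc, Pi.le_def, Fin.forall_fin_two, mem_setOf_eq]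
    simp only [Matrix.cons_val_zero, Matrix.cons_val_one]
    tauto
  have := R096.Gn_296.isBall_box (l := ![t, c]) (h := ![t', c + 1]) fun j => by
    fin_cases j <;> simp [h]
  convert this using 1
  ext z
  simp only [drct, R096.Gp_702.bb, e, mem_setOf_eq, Fin.exists_fin_two]
  simp only [Matrix.cons_val_zero, Matrix.cons_val_one]
  tauto

lemma isClosed_rct (t t' c : ℝ) : IsClosed (rct t t' c) :=
  (isClosed_Icc.preimage (continuous_apply 0)).inter (isClosed_Icc.preimage (continuous_apply 1))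

/-- bottom, top and two sides of a tube -/
structure Four (H : V → V) (t t' : ℝ) (B T a a' : P → V) : Prop where
  lt : t < t'
  cB : Continuous B
  cT : Continuous T
  ca : ContinuousOn a strip
  ca' : ContinuousOn a' strip
  pB : LocPL (fun y => H (B y)) univ
  pT : LocPL (fun y => H (T y)) univ
  pa : LPL (fun y => H (a y)) strip
  pa' : LPL (fun y => H (a' y)) strip
  aB : ∀ s, a ![s, 0] = B ![s, t]
  aT : ∀ s, a ![s, 1] = T ![s, t]
  aB' : ∀ s, a' ![s, 0] = B ![s, t']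
  aT' : ∀ s, a' ![s, 1] = T ![s, t']
  fB : ∀ y y' : P, y 1 ∈ Icc t t' → y' 1 ∈ Icc t t' →
    (H (B y) = H (B y') ↔ y 1 = y' 1 ∧ ∃ m : ℤ, y 0 - y' 0 = m)
  fT : ∀ y y' : P, y 1 ∈ Icc t t' → y' 1 ∈ Icc t t' →
    (H (T y) = H (T y') ↔ y 1 = y' 1 ∧ ∃ m : ℤ, y 0 - y' 0 = m)
  fa : ∀ y ∈ strip, ∀ y' ∈ strip, H (a y) = H (a y') ↔ y 1 = y' 1 ∧ ∃ m : ℤ, y 0 - y' 0 = m
  fa' : ∀ y ∈ strip, ∀ y' ∈ strip, H (a' y) = H (a' y') ↔ y 1 = y' 1 ∧ ∃ m : ℤ, y 0 - y' 0 = m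
  BT : ∀ y y', H (B y) ≠ H (T y')
  aa : ∀ y ∈ strip, ∀ y' ∈ strip, H (a y) ≠ H (a' y')
  ma : ∀ y : P, 0 < y 1 → y 1 < 1 → ∀ y', H (a y) ≠ H (B y') ∧ H (a y) ≠ H (T y')
  ma' : ∀ y : P, 0 < y 1 → y 1 < 1 → ∀ y', H (a' y) ≠ H (B y') ∧ H (a' y) ≠ H (T y')

open Classical in
/-- the parametrisation of the tube -/
noncomputable def frm (c t : ℝ) (B T a a' : P → V) (p : P × ℝ) : V :=
  if p.1 1 = c then B ![p.2, p.1 0] else if p.1 1 = c + 1 then T ![p.2, p.1 0] else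
    if p.1 0 = t then a ![p.2, p.1 1 - c] else a' ![p.2, p.1 1 - c]

/-- the band `t ≤ y 1 ≤ t'` -/
def band (t t' : ℝ) : Set P := {y | y 1 ∈ Icc t t'}

namespace Four

variable {H : V → V} {c t t' : ℝ} {B T a a' : P → V}

lemma frm_B {p : P × ℝ} (h : p.1 1 = c) : frm c t B T a a' p = B ![p.2, p.1 0] := if_pos h

lemma frm_T {p : P × ℝ} (h : p.1 1 = c + 1) : frm c t B T a a' p = T ![p.2, p.1 0] := by
  unfold frm; rw [if_neg (by linarith), if_pos h]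

lemma frm_a (F : Four H t t' B T a a') {p : P × ℝ} (h : p.1 0 = t) :
    frm c t B T a a' p = a ![p.2, p.1 1 - c] := by
  by_cases h1 : p.1 1 = c
  · rw [frm_B h1, h1, sub_self, F.aB, h]
  by_cases h2 : p.1 1 = c + 1
  · rw [frm_T h2, h2, add_sub_cancel_left, F.aT, h]
  · unfold frm; rw [if_neg h1, if_neg h2, if_pos h]

lemma frm_a' (F : Four H t t' B T a a') {p : P × ℝ} (h : p.1 0 = t') :
    frm c t B T a a' p = a' ![p.2, p.1 1 - c] := by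
  by_cases h1 : p.1 1 = c
  · rw [frm_B h1, h1, sub_self, F.aB', h]
  by_cases h2 : p.1 1 = c + 1
  · rw [frm_T h2, h2, add_sub_cancel_left, F.aT', h]
  · unfold frm; rw [if_neg h1, if_neg h2, if_neg (by linarith [F.lt])]

lemma mem_strip {p : P × ℝ} (h : p.1 ∈ rct t t' c) : (![p.2, p.1 1 - c] : P) ∈ strip :=
  ⟨by simpa using h.2.1, by simpa using (by linarith [h.2.2] : p.1 1 - c ≤ 1)⟩

lemma img (F : Four H t t' B T a a') (c : ℝ) : frm c t B T a a' '' (drct t t' c ×ˢ univ) =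
    B '' band t t' ∪ T '' band t t' ∪ a '' strip ∪ a' '' strip := by
  have eta : ∀ y : P, ![y 0, y 1] = y := fun y => by funext i; fin_cases i <;> rfl
  apply Subset.antisymm
  · rintro _ ⟨p, ⟨⟨hp, h | h | h | h⟩, -⟩, rfl⟩
    · exact Or.inl (Or.inl (Or.inl ⟨_, hp.1, (frm_B h).symm⟩))
    · exact Or.inl (Or.inl (Or.inr ⟨_, hp.1, (frm_T h).symm⟩))
    · exact Or.inl (Or.inr ⟨_, mem_strip hp, (F.frm_a h).symm⟩)
    · exact Or.inr ⟨_, mem_strip hp, (F.frm_a' h).symm⟩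
  · rintro _ (((⟨y, hy, rfl⟩ | ⟨y, hy, rfl⟩) | ⟨y, hy, rfl⟩) | ⟨y, hy, rfl⟩)
    · exact ⟨(![y 1, c], y 0), ⟨⟨⟨hy, le_rfl, by simp⟩, Or.inl rfl⟩, trivial⟩,
        (frm_B rfl).trans (congrArg B (eta y))⟩
    · exact ⟨(![y 1, c + 1], y 0), ⟨⟨⟨hy, by simp, le_rfl⟩, Or.inr (Or.inl rfl)⟩, trivial⟩,
        (frm_T rfl).trans (congrArg T (eta y))⟩
    · refine ⟨(![t, c + y 1], y 0), ⟨⟨⟨⟨le_rfl, F.lt.le⟩, by simpa using hy.1, by simpa using hy.2⟩,
        Or.inr (Or.inr (Or.inl rfl))⟩, trivial⟩, (F.frm_a rfl).trans (congrArg a ?_)⟩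
      simpa using eta y
    · refine ⟨(![t', c + y 1], y 0), ⟨⟨⟨⟨F.lt.le, le_rfl⟩, by simpa using hy.1, by simpa using hy.2⟩,
        Or.inr (Or.inr (Or.inr rfl))⟩, trivial⟩, (F.frm_a' rfl).trans (congrArg a' ?_)⟩
      simpa using eta y

lemma glue (F : Four H t t' B T a a') (c : ℝ) (Q : ((P × ℝ) → V) → Set (P × ℝ) → Prop) (G : V → V)
    (un : ∀ f A A', Q f A → Q f A' → IsClosed A → IsClosed A' → Q f (A ∪ A'))
    (cg : ∀ f g A A', Q f A → A' ⊆ A → EqOn g f A' → Q g A')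
    (q1 : Q (fun p => G (B ![p.2, p.1 0])) univ) (q2 : Q (fun p => G (T ![p.2, p.1 0])) univ)
    (q3 : Q (fun p => G (a ![p.2, p.1 1 - c])) (rct t t' c ×ˢ univ))
    (q4 : Q (fun p => G (a' ![p.2, p.1 1 - c])) (rct t t' c ×ˢ univ)) :
    Q (fun p => G (frm c t B T a a' p)) (drct t t' c ×ˢ univ) := by
  have cl : ∀ (i : Fin 2) (s : ℝ), IsClosed (rct t t' c ×ˢ (univ : Set ℝ) ∩ {p | p.1 i = s}) :=
    fun i s => ((isClosed_rct _ _ _).prod isClosed_univ).inter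
      (isClosed_eq (by fun_prop) continuous_const)
  refine cg _ _ _ _ (un _ _ _ (cg _ _ _ _ q1 (subset_univ _) fun p hp => ?_)
    (un _ _ _ (cg _ _ _ _ q2 (subset_univ _) fun p hp => ?_)
      (un _ _ _ (cg _ _ _ _ q3 inter_subset_left fun p hp => ?_)
        (cg _ _ _ _ q4 inter_subset_left fun p hp => ?_) (cl 0 t) (cl 0 t'))
      (cl 1 (c + 1)) ((cl 0 t).union (cl 0 t'))) (cl 1 c)
    ((cl 1 (c + 1)).union ((cl 0 t).union (cl 0 t')))) ?_ fun _ _ => rfl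
  · exact congrArg G (frm_B hp.2)
  · exact congrArg G (frm_T hp.2)
  · exact congrArg G (F.frm_a hp.2)
  · exact congrArg G (F.frm_a' hp.2)
  · rintro p ⟨⟨hp, h | h | h | h⟩, -⟩
    exacts [Or.inl ⟨⟨hp, trivial⟩, h⟩, Or.inr (Or.inl ⟨⟨hp, trivial⟩, h⟩),
      Or.inr (Or.inr (Or.inl ⟨⟨hp, trivial⟩, h⟩)), Or.inr (Or.inr (Or.inr ⟨⟨hp, trivial⟩, h⟩))]

lemma cont (F : Four H t t' B T a a') (c : ℝ) :
    ContinuousOn (frm c t B T a a') (drct t t' c ×ˢ univ) := by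
  have c1 : Continuous fun p : P × ℝ => (![p.2, p.1 0] : P) := by fun_prop
  have c2 : Continuous fun p : P × ℝ => (![p.2, p.1 1 - c] : P) := by fun_prop
  exact F.glue c ContinuousOn id (fun f A A' h h' => h.union_of_isClosed h')
    (fun f g A A' h hs e => (h.mono hs).congr e) (F.cB.comp c1).continuousOn
    (F.cT.comp c1).continuousOn (F.ca.comp c2.continuousOn fun p hp => mem_strip hp.1)
    (F.ca'.comp c2.continuousOn fun p hp => mem_strip hp.1)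

theorem tor (F : Four H t t' B T a a') (c : ℝ) :
    Tor (rct t t' c) (drct t t' c) fun p => H (frm c t B T a a' p) := by
  have c1 : ∀ A, LPL (fun p : P × ℝ => (![p.2, p.1 0] : P)) A := fun A =>
    lpl_of_plOn (pl_vec2 (pl_snd (plOn_id _)) (pl_apply (pl_fst (plOn_id _)) 0))
  have c2 : ∀ A, LPL (fun p : P × ℝ => (![p.2, p.1 1 - c] : P)) A := fun A =>
    lpl_of_plOn (pl_vec2 (pl_snd (plOn_id _))
      (pl_sub (pl_apply (pl_fst (plOn_id _)) 1) (plOn_const _ _)))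
  refine ⟨isBall_rct F.lt c, F.glue c LPL H (fun f A A' h h' => h.union h')
    (fun f g A A' h hs e => (h.mono hs).congr e)
    ((lpl_of_locPL F.pB).comp (c1 _) (mapsTo_univ _ _))
    ((lpl_of_locPL F.pT).comp (c1 _) (mapsTo_univ _ _))
    (F.pa.comp (c2 _) fun p hp => mem_strip hp.1) (F.pa'.comp (c2 _) fun p hp => mem_strip hp.1), ?_⟩
  have cs : ∀ p ∈ drct t t' c ×ˢ (univ : Set ℝ), p.1 1 = c ∨ p.1 1 = c + 1 ∨
      (0 < p.1 1 - c ∧ p.1 1 - c < 1 ∧ (p.1 0 = t ∨ p.1 0 = t')) := by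
    rintro p ⟨⟨hp, h⟩, -⟩
    by_cases h1 : p.1 1 = c
    · exact Or.inl h1
    by_cases h2 : p.1 1 = c + 1
    · exact Or.inr (Or.inl h2)
    exact Or.inr (Or.inr ⟨sub_pos.2 (lt_of_le_of_ne hp.2.1 (Ne.symm h1)),
      by linarith [lt_of_le_of_ne hp.2.2 h2], (h.resolve_left h1).resolve_left h2⟩)
  have ext : ∀ {z z' : P}, z = z' ↔ z 0 = z' 0 ∧ z 1 = z' 1 := fun {z z'} =>
    ⟨fun h => h ▸ ⟨rfl, rfl⟩, fun h => by funext i; fin_cases i; exacts [h.1, h.2]⟩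
  have lt := F.lt
  intro p hp q hq
  have sp := mem_strip hp.1.1
  have sq := mem_strip hq.1.1
  have no : ∀ {X : Prop} {i : Fin 2}, ¬ X → p.1 i ≠ q.1 i →
      (X ↔ p.1 = q.1 ∧ ∃ m : ℤ, p.2 - q.2 = m) := fun h1 h2 =>
    ⟨fun h => (h1 h).elim, fun h => (h2 (by rw [h.1])).elim⟩
  rcases cs p hp with h | h | ⟨h1, h2, h | h⟩ <;> rcases cs q hq with k | k | ⟨k1, k2, k | k⟩
  · rw [frm_B h, frm_B k, F.fB _ _ hp.1.1.1 hq.1.1.1, ext, h, k]; simp
  · rw [frm_B h, frm_T k]; exact no (i := 1) (F.BT _ _) (by linarith)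
  · rw [frm_B h, F.frm_a k]; exact no (i := 1) (F.ma _ k1 k2 _).1.symm (by linarith)
  · rw [frm_B h, F.frm_a' k]; exact no (i := 1) (F.ma' _ k1 k2 _).1.symm (by linarith)
  · rw [frm_T h, frm_B k]; exact no (i := 1) (F.BT _ _).symm (by linarith)
  · rw [frm_T h, frm_T k, F.fT _ _ hp.1.1.1 hq.1.1.1, ext, h, k]; simp
  · rw [frm_T h, F.frm_a k]; exact no (i := 1) (F.ma _ k1 k2 _).2.symm (by linarith)
  · rw [frm_T h, F.frm_a' k]; exact no (i := 1) (F.ma' _ k1 k2 _).2.symm (by linarith)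
  · rw [F.frm_a h, frm_B k]; exact no (i := 1) (F.ma _ h1 h2 _).1 (by linarith)
  · rw [F.frm_a h, frm_T k]; exact no (i := 1) (F.ma _ h1 h2 _).2 (by linarith)
  · rw [F.frm_a h, F.frm_a k, F.fa _ sp _ sq, ext, h, k]; simp
  · rw [F.frm_a h, F.frm_a' k]; exact no (i := 0) (F.aa _ sp _ sq) (by linarith)
  · rw [F.frm_a' h, frm_B k]; exact no (i := 1) (F.ma' _ h1 h2 _).1 (by linarith)
  · rw [F.frm_a' h, frm_T k]; exact no (i := 1) (F.ma' _ h1 h2 _).2 (by linarith)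
  · rw [F.frm_a' h, F.frm_a k]; exact no (i := 0) (F.aa _ sq _ sp).symm (by linarith)
  · rw [F.frm_a' h, F.frm_a' k, F.fa' _ sp _ sq, ext, h, k]; simp

/-- **the tube is filled by a solid torus** -/
theorem fill {J : Finset (Fin 3)} (F : Four H t t' B T a a') (hF : FlatStmt) (hS : SolidStmt)
    (hH : Per J H) (c : ℝ) {O Z : Set V} (hO : IsOpen O) (hne : O.Nonempty)
    (hZ : Z = O ∪ (B '' band t t' ∪ T '' band t t' ∪ a '' strip ∪ a' '' strip))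
    (hc : IsCompact (H '' Z)) {r : V → V} (cr : Continuous r) (r1 : ∀ x, r x ∈ Z)
    (r2 : ∀ x ∈ Z, r x = x) :
    ∃ G : P × ℝ → V, LPL G (rct t t' c ×ˢ univ) ∧
      (∀ p ∈ rct t t' c ×ˢ (univ : Set ℝ), (p.1 1 = c → G p = H (B ![p.2, p.1 0])) ∧
        (p.1 1 = c + 1 → G p = H (T ![p.2, p.1 0])) ∧
        (p.1 0 = t → G p = H (a ![p.2, p.1 1 - c])) ∧
        (p.1 0 = t' → G p = H (a' ![p.2, p.1 1 - c]))) ∧
      (∀ p ∈ rct t t' c ×ˢ (univ : Set ℝ), ∀ p' ∈ rct t t' c ×ˢ (univ : Set ℝ),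
        G p = G p' ↔ p.1 = p'.1 ∧ ∃ m : ℤ, p.2 - p'.2 = m) ∧
      G '' (rct t t' c ×ˢ univ) = H '' Z := by
  rw [← F.img c] at hZ
  subst hZ
  obtain ⟨G, g1, g2, g3, g4⟩ := solup hF hS hH (F.cont c) (F.tor c) hO hne hc cr r1
    fun p hp => r2 _ (Or.inr ⟨p, hp, rfl⟩)
  refine ⟨G, g1, fun p hp => ⟨fun h => ?_, fun h => ?_, fun h => ?_, fun h => ?_⟩, g3, g4⟩
  · rw [g2 p ⟨⟨hp.1, Or.inl h⟩, trivial⟩, frm_B h]
  · rw [g2 p ⟨⟨hp.1, Or.inr (Or.inl h)⟩, trivial⟩, frm_T h]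
  · rw [g2 p ⟨⟨hp.1, Or.inr (Or.inr (Or.inl h))⟩, trivial⟩, F.frm_a h]
  · rw [g2 p ⟨⟨hp.1, Or.inr (Or.inr (Or.inr h))⟩, trivial⟩, F.frm_a' h]

end Four

variable {K J : Finset (Fin 3)} {H : V → V} {c δ : ℝ} {u u' : P → V}

lemma Rung.fib (h2 : (2 : Fin 3) ∉ J) (hH : Per J H) (hu : Rung K J H c δ u) (y y' : P) :
    H (u y) = H (u y') ↔ lv 0 (y - y') ∈ lat J := by
  constructor
  · intro e
    have hl := (hH.fib _ _).1 e
    have el : lv 0 (pr (u y - u y')) = u y - u y' := by rw [← (hl 2).2 h2, lv_pr]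
    have := hu.eqv y' (pr (u y - u y')) (by rwa [el])
    rw [el, add_sub_cancel] at this
    rw [← hu.inj this, add_sub_cancel_left, el]
    exact hl
  · intro hl
    have := hu.eqv y' (y - y') hl
    rw [add_sub_cancel] at this
    rw [this, hH.add _ hl]

lemma Rung.ne_of_not_mem (h2 : (2 : Fin 3) ∉ J) (hH : Per J H) (hu : Rung K J H c δ u) {x : V}
    (hx : x ∉ range u) (y : P) : H x ≠ H (u y) := fun e =>
  hx (hH.sat (fun _ hl _ hw => add_mem_range h2 hu hl hw) x ⟨_, ⟨y, rfl⟩, e.symm⟩)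

lemma Rung.up_of_out (h2 : (2 : Fin 3) ∉ K) (hu : Rung K J H c δ u) (hs : SepH u) {x : V}
    (hx : x ∈ out K) (h : c ≤ x 2) : x ∈ Up u ∪ range u := by
  rcases hs.cov x with a | a | a
  · exact Or.inl a
  · have e : x 2 = c := le_antisymm (le_of_out_dn h2 hu hs hx (Or.inl a)) h
    exact Or.inr ⟨pr x, by rw [hu.bd _ (by rwa [← e, lv_pr]), ← e, lv_pr]⟩
  · exact Or.inr a

lemma Rung.dn_of_out (h2 : (2 : Fin 3) ∉ K) (hu : Rung K J H c δ u) (hs : SepH u) {x : V}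
    (hx : x ∈ out K) (h : x 2 ≤ c) : x ∈ Dn u ∪ range u := by
  rcases hs.cov x with a | a | a
  · have e : x 2 = c := le_antisymm h (le_of_out_up h2 hu hs hx (Or.inl a))
    exact Or.inr ⟨pr x, by rw [hu.bd _ (by rwa [← e, lv_pr]), ← e, lv_pr]⟩
  · exact Or.inl a
  · exact Or.inr a

lemma mem_lat_one {l : V} : l ∈ lat {1} ↔ l 0 = 0 ∧ l 2 = 0 ∧ ∃ m : ℤ, l 1 = m := by
  simp [lat, Fin.forall_fin_succ]; tauto

lemma mem_slab_zero {x : V} : x ∈ slab {0} ↔ |x 0| ≤ 1 := by simp [slab]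

lemma mem_out_zero {x : V} : x ∈ out {0} ↔ 1 ≤ |x 0| := by simp [out]

/-- **solid torus blocks** -/
theorem blk_one (hF : FlatStmt) (hS : SolidStmt) : BlkStmt {0} {1} := by
  intro H hH hp c u u' hu hu'
  have p := (hu.pln3 hF (by decide) hH).toPln2
  have p' := (hu'.pln3 hF (by decide) hH).toPln2
  have h2 : (2 : Fin 3) ∉ ({1} : Finset (Fin 3)) := by decide
  have k2 : (2 : Fin 3) ∉ ({0} : Finset (Fin 3)) := by decide
  have hc : c + 1 / 3 ≤ c + 1 - 1 / 3 := by linarith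
  let sw : P → P := fun y => ![y 1, y 0]
  let w : ℝ → P → V := fun e y => ![e, y 0, c + y 1]
  have psw : PLOn sw univ := pl_vec2 (pl_coord 1 _) (pl_coord 0 _)
  have csw : Continuous sw := continuousOn_univ.1 psw.1
  have pw : ∀ e, PLOn (w e) strip := fun e =>
    pl_vec3 (plOn_const _ _) (pl_coord 0 _) (pl_add (plOn_const _ _) (pl_coord 1 _))
  have wo : ∀ e, |e| = 1 → ∀ y, w e y ∈ out {0} := fun e he y => mem_out_zero.2 he.ge
  have fu : ∀ {v : P → V} {d : ℝ}, Rung {0} {1} H d (1 / 3) v → ∀ y y' : P,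
      (H (v (sw y)) = H (v (sw y')) ↔ y 1 = y' 1 ∧ ∃ m : ℤ, y 0 - y' 0 = m) := fun hv y y' => by
    rw [hv.fib h2 hH, mem_lat_one]; simp [sw, sub_eq_zero]
  have fw : ∀ e, ∀ y ∈ strip, ∀ y' ∈ strip,
      (H (w e y) = H (w e y') ↔ y 1 = y' 1 ∧ ∃ m : ℤ, y 0 - y' 0 = m) := fun e y _ y' _ => by
    rw [hH.fib, mem_lat_one]; simp [w, sub_eq_zero]
  have mw : ∀ e, |e| = 1 → ∀ y : P, 0 < y 1 → y 1 < 1 → ∀ y',
      H (w e y) ≠ H (u (sw y')) ∧ H (w e y) ≠ H (u' (sw y')) := fun e he y h0 h1 y' => by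
    refine ⟨hu.ne_of_not_mem h2 hH ?_ _, hu'.ne_of_not_mem h2 hH ?_ _⟩
    · rintro ⟨z, hz⟩
      have : c = c + y 1 := congrFun ((rung_out hu (hz ▸ wo e he y)).symm.trans hz) 2
      linarith
    · rintro ⟨z, hz⟩
      have : c + 1 = c + y 1 := congrFun ((rung_out hu' (hz ▸ wo e he y)).symm.trans hz) 2
      linarith
  have bw : ∀ {v : P → V} {d : ℝ}, Rung {0} {1} H d (1 / 3) v → ∀ e σ : ℝ, |e| = 1 → c + σ = d →
      ∀ s, w e ![s, σ] = v (sw ![s, e]) := fun hv e σ he hd s => by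
    rw [hv.bd (sw ![s, e]) (mem_out_zero.2 he.ge), ← hd]; rfl
  have F : Four H (-1) 1 (fun y => u (sw y)) (fun y => u' (sw y)) (w (-1)) (w 1) :=
    ⟨by norm_num, hu.cont.comp csw, hu'.cont.comp csw, (pw _).1, (pw _).1,
      locPL_comp (g := fun y => H (u y)) hu.pl (locPL_of_plOn psw _) (mapsTo_univ _ _),
      locPL_comp (g := fun y => H (u' y)) hu'.pl (locPL_of_plOn psw _) (mapsTo_univ _ _),
      (lpl_of_locPL hp).comp (lpl_of_plOn (pw _)) fun y _ => out_subset_rim _ (wo _ (by simp) y),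
      (lpl_of_locPL hp).comp (lpl_of_plOn (pw _)) fun y _ => out_subset_rim _ (wo _ (by simp) y),
      bw hu _ _ (by simp) (by simp), bw hu' _ _ (by simp) rfl, bw hu _ _ (by simp) (by simp),
      bw hu' _ _ (by simp) rfl, fun y y' _ _ => fu hu y y', fun y y' _ _ => fu hu' y y', fw _, fw _,
      fun y y' => hu'.ne_of_not_mem h2 hH (Pln.Dn_sub (hu.sub_Dn hu' hc _)) _,
      fun y _ y' _ e => by
        have : (-1 : ℝ) - 1 = 0 := (mem_lat_one.1 ((hH.fib _ _).1 e)).1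
        linarith,
      mw _ (by simp), mw _ (by simp)⟩
  have ob : ∀ x ∈ slab {0}, x ∈ out {0} → c ≤ x 2 → x 2 ≤ c + 1 → x ∈ Blk {0} u u' :=
    fun x a b d e => ⟨⟨a, hu.up_of_out k2 p.sepH b d⟩, hu'.dn_of_out k2 p'.sepH b e⟩
  have xw : ∀ x : V, x = w (x 0) ![x 1, x 2 - c] := fun x => by
    funext i; fin_cases i <;> simp [w]
  have ysw : ∀ y : P, sw (sw y) = y := fun y => by funext i; fin_cases i <;> rfl
  obtain ⟨r, cr, r1, r2⟩ := p.exists_retr p' (by rintro _ ⟨y, rfl⟩; exact Or.inl (hu.sub_Up hu' hc y))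
  let cl : V → V := fun x => ![max (-1) (min 1 (x 0)), x 1, x 2]
  have cl1 : ∀ x ∈ slab {0}, cl x = x := fun x hx => by
    have := abs_le.1 (mem_slab_zero.1 hx)
    funext i; fin_cases i <;> simp [cl, min_eq_right this.2, max_eq_right this.1]
  obtain ⟨G, g1, g2, g3, g4⟩ := F.fill hF hS hH c (O := (out {0})ᶜ ∩ (Up u ∩ Dn u'))
    (Z := Blk {0} u u') ((isClosed_out _).isOpen_compl.inter (p.isOpen_Up.inter p'.isOpen_Dn))
    ⟨lv (c + 1 / 2) 0, by simp [mem_out_zero], mem_up_of_le hu (by simp; linarith),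
      mem_dn_of_le hu' (by simp; linarith)⟩ (by
      apply Subset.antisymm
      · intro x hx
        by_cases ho : x ∈ out {0}
        · have b1 := le_of_out_up k2 hu p.sepH ho hx.1.2
          have b2 := le_of_out_dn k2 hu' p'.sepH ho hx.2
          have st : (![x 1, x 2 - c] : P) ∈ strip :=
            ⟨by simpa using b1, by simpa using (by linarith : x 2 - c ≤ 1)⟩
          rcases (abs_eq zero_le_one).1 (le_antisymm (mem_slab_zero.1 hx.1.1) (mem_out_zero.1 ho))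
            with h | h
          · exact Or.inr (Or.inr ⟨_, st, by rw [← h]; exact (xw x).symm⟩)
          · exact Or.inr (Or.inl (Or.inr ⟨_, st, by rw [← h]; exact (xw x).symm⟩))
        rcases hx.1.2 with h | ⟨y, rfl⟩
        · rcases hx.2 with h' | ⟨y, rfl⟩
          · exact Or.inl ⟨ho, h, h'⟩
          · exact Or.inr (Or.inl (Or.inl (Or.inr ⟨sw y,
              abs_le.1 (mem_slab_zero.1 (lv_mem_slab hu' hx.1.1)), congrArg u' (ysw y)⟩)))
        · exact Or.inr (Or.inl (Or.inl (Or.inl ⟨sw y,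
            abs_le.1 (mem_slab_zero.1 (lv_mem_slab hu hx.1.1)), congrArg u (ysw y)⟩)))
      · rintro x (h | ((⟨y, hy, rfl⟩ | ⟨y, hy, rfl⟩) | ⟨y, hy, rfl⟩) | ⟨y, hy, rfl⟩)
        · exact ⟨⟨mem_slab_of_not_mem h.1, Or.inl h.2.1⟩, Or.inl h.2.2⟩
        · exact ⟨⟨rung_mem_slab hu (mem_slab_zero.2 (abs_le.2 hy)), Or.inr ⟨_, rfl⟩⟩,
            Or.inl (hu.sub_Dn hu' hc _)⟩
        · exact ⟨⟨rung_mem_slab hu' (mem_slab_zero.2 (abs_le.2 hy)), Or.inl (hu.sub_Up hu' hc _)⟩,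
            Or.inr ⟨_, rfl⟩⟩
        · exact ob _ (mem_slab_zero.2 (by simp [w])) (wo _ (by simp) y) (by simpa [w] using hy.1)
            (by simpa [w] using hy.2)
        · exact ob _ (mem_slab_zero.2 (by simp [w])) (wo _ (by simp) y) (by simpa [w] using hy.1)
            (by simpa [w] using hy.2))
    (isCompact_blk hF (by decide) (by decide) hH hu hu') (r := fun x => cl (r x))
    ((by fun_prop : Continuous cl).comp cr) (fun x => by
      by_cases hs : r x ∈ slab {0}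
      · rw [cl1 _ hs]; exact ⟨⟨hs, (r1 x).1⟩, (r1 x).2⟩
      · have ho := mem_out_of_not_mem hs
        have e : |cl (r x) 0| = 1 := by
          show |max (-1) (min 1 (r x 0))| = 1
          rcases le_abs.1 (mem_out_zero.1 ho) with h | h
          · rw [min_eq_left h]; norm_num
          · rw [max_eq_left ((min_le_right _ _).trans (by linarith))]; norm_num
        have b1 := le_of_out_up k2 hu p.sepH ho (r1 x).1
        have b2 := le_of_out_dn k2 hu' p'.sepH ho (r1 x).2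
        exact ob _ (mem_slab_zero.2 e.le) (mem_out_zero.2 e.ge) b1 b2)
    fun x hx => by rw [r2 x ⟨hx.1.2, hx.2⟩, cl1 x hx.1.1]
  let κ : V → P × ℝ := fun x => (![x 0, x 2], x 1)
  have mκ : ∀ x, x ∈ Lay {0} c ↔ κ x ∈ rct (-1) 1 c ×ˢ (univ : Set ℝ) := fun x => by
    simp [Lay, rct, κ, mem_slab_zero, abs_le]
  refine ⟨fun x => G (κ x), g1.comp (lpl_of_plOn (pl_prod (pl_vec2 (pl_coord 0 _) (pl_coord 2 _))
    (pl_coord 1 _))) fun x hx => (mκ x).1 hx, fun x hx h => (g2 _ ((mκ x).1 hx)).1 h,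
    fun x hx h => (g2 _ ((mκ x).1 hx)).2.1 h, fun x hx ho => ?_, fun x hx y hy => ?_, ?_⟩
  · rcases (abs_eq zero_le_one).1 (le_antisymm (mem_slab_zero.1 hx.1) (mem_out_zero.1 ho))
      with h | h
    · rw [(g2 _ ((mκ x).1 hx)).2.2.2 h, ← h]; exact congrArg H (xw x).symm
    · rw [(g2 _ ((mκ x).1 hx)).2.2.1 h, ← h]; exact congrArg H (xw x).symm
  · rw [g3 _ ((mκ x).1 hx) _ ((mκ y).1 hy), mem_lat_one]
    simp [κ, sub_eq_zero, and_assoc]
  · rw [← g4]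
    apply Subset.antisymm
    · rintro _ ⟨x, hx, rfl⟩; exact ⟨_, (mκ x).1 hx, rfl⟩
    · rintro _ ⟨q, hq, rfl⟩
      have e : κ ![q.1 0, q.2, q.1 1] = q := by
        refine Prod.ext ?_ rfl
        funext i; fin_cases i <;> rfl
      exact ⟨_, (mκ _).2 (e.symm ▸ hq), congrArg G e⟩

end Crest.Agent.X212.Prd34
end

-- ▼ part X212/Prd34/Zp
section

/-!
# X212 / T layer: Z-shaped planes through a vertical annulus (helper34)
-/

set_option autoImplicit false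

open Set Metric Topology

namespace Crest.Agent.X212.Prd34

open Crest.Agent.R096.Ce_537 Crest.Agent.X212.Lad50

lemma eta2 (y : P) : ![y 0, y 1] = y := by funext i; fin_cases i <;> rfl

lemma mem_lat_two {l : V} : l ∈ lat {0, 1} ↔ ∃ k m : ℤ, l = ![(k : ℝ), (m : ℝ), 0] := by
  constructor
  · intro h
    obtain ⟨k, hk⟩ := (h 0).1 (by decide)
    obtain ⟨m, hm⟩ := (h 1).1 (by decide)
    have := (h 2).2 (by decide)
    exact ⟨k, m, by funext i; fin_cases i; exacts [hk, hm, this]⟩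
  · rintro ⟨k, m, rfl⟩ i
    fin_cases i <;> simp

lemma collapse {Z : Set V} (hZ : IsClosed Z) {φ : P → V} (hφ : IsClosedEmbedding φ) {π : P → P}
    (hπ : Continuous π) (h1 : ∀ y, φ (π y) ∈ Z) (h2 : ∀ y, φ y ∈ Z → π y = y) :
    ∃ ρ : V → V, ContinuousOn ρ (Z ∪ range φ) ∧ (∀ x, ρ x ∈ Z) ∧ ∀ x ∈ Z, ρ x = x := by
  classical
  obtain ⟨g, hg⟩ := (ContinuousMap.id P).exists_extension' hφ
  refine ⟨fun x => if x ∈ Z then x else φ (π (g x)), ?_, fun x => ?_, fun x hx => if_pos hx⟩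
  · refine ContinuousOn.union_of_isClosed ?_ ?_ hZ hφ.isClosed_range
    · exact continuousOn_id.congr fun x hx => if_pos hx
    · refine (hφ.continuous.comp (hπ.comp g.continuous)).continuousOn.congr ?_
      rintro _ ⟨y, rfl⟩
      by_cases hx : φ y ∈ Z
      · have e : g (φ y) = y := congrFun hg y
        simp only [if_pos hx, Function.comp, e, h2 y hx]
      · simp only [if_neg hx]; rfl
  · by_cases hx : x ∈ Z
    · simpa only [if_pos hx] using hx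
    · simpa only [if_neg hx] using h1 _

/-- two consecutive tori -/
structure Ctx (H : V → V) (c : ℝ) (u u' : P → V) : Prop where
  hF : FlatStmt
  hH : Per {0, 1} H
  hu : Rung ∅ {0, 1} H c (1 / 3) u
  hu' : Rung ∅ {0, 1} H (c + 1) (1 / 3) u'

/-- a vertical annulus at level `t` -/
structure Str (H : V → V) (u u' : P → V) (t : ℝ) (a : P → V) : Prop where
  cont : ContinuousOn a strip
  per : ∀ y ∈ strip, ∀ m : ℤ, a ![y 0 + m, y 1] = a y + ![(m : ℝ), 0, 0]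
  bot : ∀ s, a ![s, 0] = u ![s, t]
  top : ∀ s, a ![s, 1] = u' ![s, t]
  mid : ∀ y : P, 0 < y 1 → y 1 < 1 → a y ∈ Up u ∩ Dn u'
  pl : LPL (fun y => H (a y)) strip
  fib : ∀ y ∈ strip, ∀ y' ∈ strip, H (a y) = H (a y') ↔ y 1 = y' 1 ∧ ∃ m : ℤ, y 0 - y' 0 = m

open Classical in
/-- the Z-shaped plane -/
noncomputable def zp (u u' : P → V) (t : ℝ) (a : P → V) (y : P) : V :=
  if y 1 ≤ 0 then u' ![y 0, t + y 1] else if y 1 ≤ 1 then a ![y 0, 1 - y 1] else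
    u ![y 0, t + y 1 - 1]

variable {H : V → V} {c t t' : ℝ} {u u' a a' : P → V}

lemma Rung.shift {K : Finset (Fin 3)} {δ : ℝ} (hu : Rung K {0, 1} H c δ u) (s τ : ℝ) (k m : ℤ) :
    u ![s + k, τ + m] = u ![s, τ] + ![(k : ℝ), (m : ℝ), 0] := by
  have := hu.eqv ![s, τ] ![k, m] (mem_lat_two.2 ⟨k, m, rfl⟩)
  rw [show (![s, τ] + ![(k : ℝ), (m : ℝ)] : P) = ![s + k, τ + m] by funext i; fin_cases i <;> rfl] at this
  exact this

namespace Ctx

lemma p (C : Ctx H c u u') : Pln3 u := C.hu.pln3 C.hF (by simp) C.hH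
lemma p' (C : Ctx H c u u') : Pln3 u' := C.hu'.pln3 C.hF (by simp) C.hH
lemma ud (C : Ctx H c u u') (y : P) : u y ∈ Dn u' := C.hu.sub_Dn C.hu' (by linarith) y
lemma uu (C : Ctx H c u u') (y : P) : u' y ∈ Up u := C.hu.sub_Up C.hu' (by linarith) y
lemma ne (C : Ctx H c u u') (y y' : P) : u y ≠ u' y' := fun e => Pln.Dn_sub (C.ud y) ⟨y', e.symm⟩

end Ctx

namespace Str

lemma cases (S : Str H u u' t a) {y : P} (hy : y ∈ strip) :
    (y 1 = 0 ∧ a y = u ![y 0, t]) ∨ (y 1 = 1 ∧ a y = u' ![y 0, t]) ∨ a y ∈ Up u ∩ Dn u' := by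
  rcases hy.1.eq_or_lt with h | h
  · exact Or.inl ⟨h.symm, by rw [← S.bot, h, eta2]⟩
  rcases hy.2.eq_or_lt with h' | h'
  · exact Or.inr (Or.inl ⟨h', by rw [← S.top, ← h', eta2]⟩)
  · exact Or.inr (Or.inr (S.mid y h h'))

lemma eq_u (S : Str H u u' t a) (C : Ctx H c u u') {y w : P} (hy : y ∈ strip) (e : a y = u w) :
    y 1 = 0 ∧ w = ![y 0, t] := by
  rcases S.cases hy with h | h | h
  · exact ⟨h.1, C.hu.inj (e.symm.trans h.2)⟩
  · exact (C.ne _ _ (e.symm.trans h.2)).elim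
  · exact (Pln.Up_sub h.1 ⟨w, e.symm⟩).elim

lemma eq_u' (S : Str H u u' t a) (C : Ctx H c u u') {y w : P} (hy : y ∈ strip) (e : a y = u' w) :
    y 1 = 1 ∧ w = ![y 0, t] := by
  rcases S.cases hy with h | h | h
  · exact (C.ne _ _ (h.2.symm.trans e)).elim
  · exact ⟨h.1, C.hu'.inj (e.symm.trans h.2)⟩
  · exact (Pln.Dn_sub h.2 ⟨w, e.symm⟩).elim

lemma inj (S : Str H u u' t a) : InjOn a strip := by
  intro y hy y' hy' e
  obtain ⟨h1, m, hm⟩ := (S.fib y hy y' hy').1 (congrArg H e)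
  have h2 := S.per y' hy' m
  rw [← hm, add_sub_cancel, ← h1, eta2, e] at h2
  have h3 : y 0 - y' 0 = 0 := by simpa using congrFun h2 0
  rw [← eta2 y, ← eta2 y', h1, sub_eq_zero.1 h3]

lemma bdd (S : Str H u u' t a) : ∃ C, ∀ y ∈ strip, ‖a y - lv 0 y‖ ≤ C := by
  have hc : IsCompact (closedBall (0 : P) 1 ∩ strip) := (isCompact_closedBall _ _).inter_right
    ((isClosed_le continuous_const (continuous_apply 1)).inter
      (isClosed_le (continuous_apply 1) continuous_const))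
  obtain ⟨C, hC⟩ := hc.exists_bound_of_continuousOn (f := fun y => a y - lv 0 y)
    ((S.cont.mono inter_subset_right).sub (continuous_lv 0).continuousOn)
  refine ⟨C, fun y hy => ?_⟩
  have h1 := Int.floor_le (y 0)
  have h2 := Int.lt_floor_add_one (y 0)
  have h3 := hC ![y 0 + (-⌊y 0⌋ : ℤ), y 1] ⟨by
    rw [mem_closedBall_zero_iff, norm_vec2, max_le_iff, abs_le, abs_le]
    push_cast
    exact ⟨⟨by linarith, by linarith⟩, by linarith [hy.1], hy.2⟩, hy⟩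
  rw [S.per y hy] at h3
  refine le_of_eq_of_le (congrArg _ ?_) h3
  funext i; fin_cases i <;> simp <;> rfl

lemma lo {y : P} (h : y 1 ≤ 0) : zp u u' t a y = u' ![y 0, t + y 1] := if_pos h

lemma md (S : Str H u u' t a) {y : P} (h : y ∈ strip) : zp u u' t a y = a ![y 0, 1 - y 1] := by
  rcases h.1.eq_or_lt with h0 | h0
  · rw [lo h0.ge, ← h0, sub_zero, add_zero, S.top]
  · unfold zp; rw [if_neg (not_le.2 h0), if_pos h.2]

lemma hi (S : Str H u u' t a) {y : P} (h : 1 ≤ y 1) : zp u u' t a y = u ![y 0, t + y 1 - 1] := by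
  rcases h.eq_or_lt with h0 | h0
  · rw [S.md ⟨by linarith, h0.ge⟩, ← h0, sub_self, add_sub_cancel_right, S.bot]
  · unfold zp; rw [if_neg (by linarith), if_neg (not_le.2 h0)]

lemma flip_mem {y : P} (h : y ∈ strip) : (![y 0, 1 - y 1] : P) ∈ strip :=
  ⟨by simpa using h.2, by simpa using h.1⟩

lemma img (S : Str H u u' t a) : zp u u' t a '' strip = a '' strip := by
  apply Subset.antisymm
  · rintro _ ⟨y, hy, rfl⟩; exact ⟨_, flip_mem hy, (S.md hy).symm⟩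
  · rintro _ ⟨y, hy, rfl⟩
    exact ⟨_, flip_mem hy, (S.md (flip_mem hy)).trans (congrArg a (by simpa using eta2 y))⟩

lemma mem_range (S : Str H u u' t a) {x : V} : x ∈ range (zp u u' t a) ↔
    (∃ y : P, y 1 ≤ t ∧ u' y = x) ∨ x ∈ a '' strip ∨ ∃ y : P, t ≤ y 1 ∧ u y = x := by
  constructor
  · rintro ⟨y, rfl⟩
    rcases le_total (y 1) 0 with h | h
    · exact Or.inl ⟨_, by simpa using h, (lo h).symm⟩
    rcases le_total (y 1) 1 with h' | h'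
    · exact Or.inr (Or.inl (S.img ▸ ⟨y, ⟨h, h'⟩, rfl⟩))
    · exact Or.inr (Or.inr ⟨_, by simp; linarith, (S.hi h').symm⟩)
  · rintro (⟨y, hy, rfl⟩ | h | ⟨y, hy, rfl⟩)
    · exact ⟨![y 0, y 1 - t], (lo (by simpa using hy)).trans (congrArg u' (by simpa using eta2 y))⟩
    · exact image_subset_range _ _ (S.img.symm ▸ h)
    · refine ⟨![y 0, y 1 - t + 1], (S.hi (by simpa using hy)).trans (congrArg u ?_)⟩
      rw [← eta2 y]; simp; ring

lemma glue (S : Str H u u' t a) (Q : (P → V) → Set P → Prop) (G : V → V)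
    (un : ∀ f A A', Q f A → Q f A' → IsClosed A → IsClosed A' → Q f (A ∪ A'))
    (cg : ∀ f g A A', Q f A → A' ⊆ A → EqOn g f A' → Q g A')
    (q1 : Q (fun y => G (u' ![y 0, t + y 1])) univ) (q2 : Q (fun y => G (a ![y 0, 1 - y 1])) strip)
    (q3 : Q (fun y => G (u ![y 0, t + y 1 - 1])) univ) :
    Q (fun y => G (zp u u' t a y)) univ := by
  have c1 : IsClosed {y : P | y 1 ≤ 0} := isClosed_le (continuous_apply 1) continuous_const
  have c3 : IsClosed {y : P | 1 ≤ y 1} := isClosed_le continuous_const (continuous_apply 1)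
  have c2 : IsClosed strip := (isClosed_le continuous_const (continuous_apply 1)).inter
    (isClosed_le (continuous_apply 1) continuous_const)
  refine cg _ _ _ _ (un _ _ _ (cg _ _ _ _ q1 (subset_univ _) fun y hy => congrArg G (lo hy))
    (un _ _ _ (cg _ _ _ _ q2 Subset.rfl fun y hy => congrArg G (S.md hy))
      (cg _ _ _ _ q3 (subset_univ _) fun y hy => congrArg G (S.hi hy)) c2 c3) c1 (c2.union c3))
    (fun y _ => ?_) fun _ _ => rfl
  rcases le_total (y 1) 0 with h | h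
  · exact Or.inl h
  · exact Or.inr ((le_total (y 1) 1).imp_left fun h' => ⟨h, h'⟩)

theorem pln (S : Str H u u' t a) (C : Ctx H c u u') : Pln3 (zp u u' t a) := by
  have f1 : PLOn (fun y : P => (![y 0, t + y 1] : P)) univ :=
    pl_vec2 (pl_coord 0 _) (pl_add (plOn_const _ _) (pl_coord 1 _))
  have f2 : PLOn (fun y : P => (![y 0, 1 - y 1] : P)) strip :=
    pl_vec2 (pl_coord 0 _) (pl_sub (plOn_const _ _) (pl_coord 1 _))
  have f3 : PLOn (fun y : P => (![y 0, t + y 1 - 1] : P)) univ :=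
    pl_vec2 (pl_coord 0 _) (pl_sub (pl_add (plOn_const _ _) (pl_coord 1 _)) (plOn_const _ _))
  refine Pln.pln3 C.hF C.hH ⟨continuousOn_univ.1 (S.glue ContinuousOn id
    (fun f A A' h h' => h.union_of_isClosed h') (fun f g A A' h hs e => (h.mono hs).congr e)
    (C.hu'.cont.comp_continuousOn f1.1) (S.cont.comp f2.1 fun y hy => flip_mem hy)
    (C.hu.cont.comp_continuousOn f3.1)), ?_, ?_⟩
    ((S.glue LPL H (fun f A A' h h' => h.union h') (fun f g A A' h hs e => (h.mono hs).congr e)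
      ((lpl_of_locPL C.hu'.pl).comp (lpl_of_plOn f1) (mapsTo_univ _ _))
      (S.pl.comp (lpl_of_plOn f2) fun y hy => flip_mem hy)
      ((lpl_of_locPL C.hu.pl).comp (lpl_of_plOn f3) (mapsTo_univ _ _))).locPL isOpen_univ)
  · have cs : ∀ y : P, y 1 ≤ 0 ∨ (y ∈ strip ∧ 0 < y 1 ∧ y 1 < 1) ∨ 1 ≤ y 1 := fun y => by
      rcases le_or_gt (y 1) 0 with h | h
      · exact Or.inl h
      · exact Or.inr ((lt_or_ge (y 1) 1).imp_left fun h' => ⟨⟨h.le, h'.le⟩, h, h'⟩)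
    have fin : ∀ {y y' : P} {s s' : ℝ}, (![y 0, s] : P) = ![y' 0, s'] → (s = s' → y 1 = y' 1) →
        y = y' := fun {y y' s s'} e h => by
      rw [← eta2 y, ← eta2 y', h (congrFun e 1), show y 0 = y' 0 from congrFun e 0]
    intro y y' e
    rcases cs y with h | ⟨h, h0, h1⟩ | h <;> rcases cs y' with k | ⟨k, k0, k1⟩ | k
    · rw [lo h, lo k] at e; exact fin (C.hu'.inj e) fun _ => by linarith
    · rw [lo h, S.md k] at e
      have : 1 - y' 1 = 1 := (S.eq_u' C (flip_mem k) e.symm).1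
      linarith
    · rw [lo h, S.hi k] at e; exact (C.ne _ _ e.symm).elim
    · rw [S.md h, lo k] at e
      have : 1 - y 1 = 1 := (S.eq_u' C (flip_mem h) e).1
      linarith
    · rw [S.md h, S.md k] at e
      exact fin (S.inj (flip_mem h) (flip_mem k) e) fun _ => by linarith
    · rw [S.md h, S.hi k] at e
      have : 1 - y 1 = 0 := (S.eq_u C (flip_mem h) e).1
      linarith
    · rw [S.hi h, lo k] at e; exact (C.ne _ _ e).elim
    · rw [S.hi h, S.md k] at e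
      have : 1 - y' 1 = 0 := (S.eq_u C (flip_mem k) e.symm).1
      linarith
    · rw [S.hi h, S.hi k] at e; exact fin (C.hu.inj e) fun _ => by linarith
  · obtain ⟨C1, h1⟩ := C.p.bdd
    obtain ⟨C2, h2⟩ := C.p'.bdd
    obtain ⟨C3, h3⟩ := S.bdd
    have key : ∀ (x : V) (y : P) (s D : ℝ), ‖x - lv 0 ![y 0, s]‖ ≤ D → |s - y 1| ≤ |t| + 1 →
        ‖x - lv 0 y‖ ≤ D + (|t| + 1) := by
      intro x y s D h h'
      have : ‖lv 0 ![y 0, s] - lv 0 y‖ ≤ |t| + 1 := by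
        rw [pi_norm_le_iff_of_nonneg (by positivity)]
        intro i; fin_cases i
        · simp; positivity
        · simpa using h'
        · simp; positivity
      linarith [norm_sub_le_norm_sub_add_norm_sub x (lv 0 ![y 0, s]) (lv 0 y)]
    refine ⟨max C1 (max C2 C3) + (|t| + 1), fun y => ?_⟩
    have t1 := le_abs_self t
    have t2 := neg_abs_le t
    rcases le_total (y 1) 0 with h | h
    · rw [lo h]
      exact key _ _ _ _ ((h2 _).trans (by simp)) (abs_le.2 ⟨by linarith, by linarith⟩)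
    rcases le_total (y 1) 1 with h' | h'
    · rw [S.md ⟨h, h'⟩]
      exact key _ _ _ _ ((h3 _ (flip_mem ⟨h, h'⟩)).trans (by simp))
        (abs_le.2 ⟨by linarith, by linarith⟩)
    · rw [S.hi h']
      exact key _ _ _ _ ((h1 _).trans (by simp)) (abs_le.2 ⟨by linarith, by linarith⟩)

lemma isClosed (S : Str H u u' t a) (C : Ctx H c u u') : IsClosed (a '' strip) :=
  S.img ▸ (S.pln C).isClosedEmbedding.isClosedMap _
    ((isClosed_le continuous_const (continuous_apply 1)).inter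
      (isClosed_le (continuous_apply 1) continuous_const))

lemma sub_blk (S : Str H u u' t a) (C : Ctx H c u u') {x : V} (hx : x ∈ range (zp u u' t a)) :
    x ∈ (Up u ∪ range u) ∩ (Dn u' ∪ range u') := by
  rcases S.mem_range.1 hx with ⟨y, -, rfl⟩ | ⟨y, hy, rfl⟩ | ⟨y, -, rfl⟩
  · exact ⟨Or.inl (C.uu y), Or.inr ⟨y, rfl⟩⟩
  · rcases S.cases hy with h | h | h
    · exact h.2 ▸ ⟨Or.inr ⟨_, rfl⟩, Or.inl (C.ud _)⟩
    · exact h.2 ▸ ⟨Or.inl (C.uu _), Or.inr ⟨_, rfl⟩⟩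
    · exact ⟨Or.inl h.1, Or.inl h.2⟩
  · exact ⟨Or.inr ⟨y, rfl⟩, Or.inl (C.ud y)⟩

lemma Dn_u (S : Str H u u' t a) (C : Ctx H c u u') : Dn u ⊆ Dn (zp u u' t a) :=
  C.p.toPln2.Dn_mono (S.pln C).toPln2 fun _ hx => (S.sub_blk C hx).1

lemma Up_u' (S : Str H u u' t a) (C : Ctx H c u u') : Up u' ⊆ Up (zp u u' t a) :=
  (S.pln C).toPln2.Up_mono C.p'.toPln2 fun _ hx => (S.sub_blk C hx).2

lemma Up_u (S : Str H u u' t a) (C : Ctx H c u u') : Up (zp u u' t a) ⊆ Up u :=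
  C.p.toPln2.Up_mono (S.pln C).toPln2 (C.p.toPln2.le_Dn (S.pln C).toPln2 (S.Dn_u C))

lemma Dn_u' (S : Str H u u' t a) (C : Ctx H c u u') : Dn (zp u u' t a) ⊆ Dn u' :=
  (S.pln C).toPln2.Dn_mono C.p'.toPln2 ((S.pln C).toPln2.le_Up C.p'.toPln2 (S.Up_u' C))

/-- **order of two Z-planes** -/
theorem le (S : Str H u u' t a) (S' : Str H u u' t' a') (C : Ctx H c u u') (h : t < t')
    (hd : ∀ y ∈ strip, ∀ y' ∈ strip, a y ≠ a' y') :
    range (zp u u' t' a') ⊆ Up (zp u u' t a) ∪ range (zp u u' t a) := by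
  have l1 := (S.pln C).toPln2.le_Up C.p'.toPln2 (S.Up_u' C)
  intro x hx
  rcases S'.mem_range.1 hx with ⟨y, -, rfl⟩ | ⟨y, hy, rfl⟩ | ⟨y, hy, rfl⟩
  · exact l1 ⟨y, rfl⟩
  · rcases hy.1.eq_or_lt with h0 | h0
    · refine Or.inr (S.mem_range.2 (Or.inr (Or.inr ⟨![y 0, t'], h.le, ?_⟩)))
      rw [← S'.bot, h0, eta2]
    · have cv : Convex ℝ {y : P | 0 < y 1 ∧ y 1 ≤ 1} :=
        (convex_halfSpace_gt (f := fun y : P => y 1) ⟨fun _ _ => rfl, fun _ _ => rfl⟩ 0).inter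
          (convex_halfSpace_le (f := fun y : P => y 1) ⟨fun _ _ => rfl, fun _ _ => rfl⟩ 1)
      have nd : a' '' {y : P | 0 < y 1 ∧ y 1 ≤ 1} ⊆ (range (zp u u' t a))ᶜ := by
        rintro _ ⟨z, hz, rfl⟩ hr
        have hz' : z ∈ strip := ⟨hz.1.le, hz.2⟩
        rcases S.mem_range.1 hr with ⟨w, hw, e⟩ | ⟨w, hw, e⟩ | ⟨w, -, e⟩
        · have : w 1 = t' := congrFun (S'.eq_u' C hz' e.symm).2 1
          linarith
        · exact hd w hw z hz' e
        · exact hz.1.ne' (S'.eq_u C hz' e.symm).1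
      have m : a' ![0, 1] ∈ a' '' {y : P | 0 < y 1 ∧ y 1 ≤ 1} := ⟨_, ⟨by simp, by simp⟩, rfl⟩
      exact Or.inl ((S.pln C).toPln2.sub_Up (cv.isPreconnected.image _
        (S'.cont.mono fun z hz => ⟨hz.1.le, hz.2⟩)) nd m
        ((l1 ⟨_, (S'.top 0).symm⟩).resolve_right (nd m)) ⟨y, ⟨h0, hy.2⟩, rfl⟩)
  · exact Or.inr (S.mem_range.2 (Or.inr (Or.inr ⟨y, h.le.trans hy, rfl⟩)))

/-- translation of Z-planes -/
lemma shift (S : Str H u u' t a) (S' : Str H u u' t' a') (C : Ctx H c u u') (k m : ℤ)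
    (ht : t' = t + m) (ha : ∀ y, a' y = a y + ![0, (m : ℝ), 0]) (x : V)
    (hx : x + ![(k : ℝ), (m : ℝ), 0] ∈ range (zp u u' t' a')) : x ∈ range (zp u u' t a) := by
  have e : ∀ z : V, z = x + ![(k : ℝ), (m : ℝ), 0] →
      z + ![((-k : ℤ) : ℝ), ((-m : ℤ) : ℝ), 0] = x := by
    rintro _ rfl; funext i; fin_cases i <;> simp <;> rfl
  rcases S'.mem_range.1 hx with ⟨y, hy, h⟩ | ⟨y, hy, h⟩ | ⟨y, hy, h⟩
  · exact S.mem_range.2 (Or.inl ⟨![y 0 + (-k : ℤ), y 1 + (-m : ℤ)], by simp; linarith,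
      by rw [C.hu'.shift, eta2, e _ h]⟩)
  · refine S.mem_range.2 (Or.inr (Or.inl ⟨![y 0 + (-k : ℤ), y 1], hy, ?_⟩))
    rw [S.per y hy, ← e _ h, ha]
    funext i; fin_cases i <;> simp <;> rfl
  · exact S.mem_range.2 (Or.inr (Or.inr ⟨![y 0 + (-k : ℤ), y 1 + (-m : ℤ)], by simp; linarith,
      by rw [C.hu.shift, eta2, e _ h]⟩))

/-- far to the right the Z-plane is the bottom, far to the left it is the top -/
theorem far (S : Str H u u' t a) (C : Ctx H c u u') :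
    ∃ M, ∀ x : V, (M < x 1 → x ∈ Up u → x ∈ Up (zp u u' t a)) ∧
      (x 1 < -M → x ∈ Dn u' → x ∈ Dn (zp u u' t a)) := by
  obtain ⟨C1, -, h1⟩ := C.p.coord
  obtain ⟨C2, -, h2⟩ := C.p'.coord
  obtain ⟨C3, h3⟩ := S.bdd
  have h3' : ∀ y ∈ strip, |a y 1| ≤ C3 + 1 := fun y hy => by
    have := abs_le.1 ((norm_le_pi_norm (a y - lv 0 y) 1).trans (h3 y hy))
    simp only [Pi.sub_apply, lv_one] at this
    exact abs_le.2 ⟨by linarith [hy.1], by linarith [hy.2]⟩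
  have Z := S.pln C
  obtain ⟨zh, hzh⟩ := Z.exists_high
  obtain ⟨zl, hzl⟩ := Z.exists_low
  set M := max (max C1 C2 + |t|) (C3 + 1) with hM
  have m1 : C1 + |t| ≤ M := le_max_of_le_left (by simp)
  have m2 : C2 + |t| ≤ M := le_max_of_le_left (by simp)
  have m3 : C3 + 1 ≤ M := le_max_right _ _
  have t1 := le_abs_self t
  have t2 := neg_abs_le t
  have r1 : ∀ x : V, x ∉ {x : V | x 1 ≤ M} → (x ∈ range u ↔ x ∈ range (zp u u' t a)) := by
    intro x hx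
    have hx' : M < x 1 := not_le.1 hx
    rw [S.mem_range]
    constructor
    · rintro ⟨y, rfl⟩
      exact Or.inr (Or.inr ⟨y, by linarith [(abs_le.1 (h1 y).2.1).2], rfl⟩)
    · rintro (⟨y, hy, rfl⟩ | ⟨y, hy, rfl⟩ | ⟨y, -, rfl⟩)
      · linarith [(abs_le.1 (h2 y).2.1).2]
      · linarith [(abs_le.1 (h3' y hy)).2]
      · exact ⟨y, rfl⟩
  have r2 : ∀ x : V, x ∉ {x : V | -M ≤ x 1} → (x ∈ range (zp u u' t a) ↔ x ∈ range u') := by
    intro x hx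
    have hx' : x 1 < -M := not_le.1 hx
    rw [S.mem_range]
    constructor
    · rintro (⟨y, -, rfl⟩ | ⟨y, hy, rfl⟩ | ⟨y, hy, rfl⟩)
      · exact ⟨y, rfl⟩
      · linarith [(abs_le.1 (h3' y hy)).1]
      · linarith [(abs_le.1 (h1 y).2.1).1]
    · rintro ⟨y, rfl⟩
      exact Or.inl ⟨y, by linarith [(abs_le.1 (h2 y).2.1).1], rfl⟩
  refine ⟨M, fun x => ⟨fun hx hU => ?_, fun hx hD => ?_⟩⟩
  · have := empty_of_closed (C.p.isOpen_Up.inter Z.isOpen_Dn)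
      (C.p.isClosed_between Z.toPln2 (S.Dn_u C)
        (isClosed_le (continuous_apply 1) continuous_const) r1)
      (F := {x | M < x 1}) (convex_halfSpace_gt (f := fun y : V => y 1)
        ⟨fun _ _ => rfl, fun _ _ => rfl⟩ M).isPreconnected
      (fun x (hx : M < x 1) (h : x 1 ≤ M) => not_le.2 hx h)
      (z := ![0, M + 1, zh 2]) (by simp)
      (fun h => disjoint_left.1 Z.toPln.disjoint h.2 (Pln.high (z := ![0, M + 1, zh 2]) hzh)) x hx
    rcases Z.tri x with h | h | h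
    exacts [(this ⟨hU, h⟩).elim, (Pln.Up_sub hU ((r1 x (not_le.2 hx)).2 h)).elim, h]
  · have := empty_of_closed (Z.isOpen_Up.inter C.p'.isOpen_Dn)
      (Z.isClosed_between C.p'.toPln2 (S.Dn_u' C)
        (isClosed_le continuous_const (continuous_apply 1)) r2)
      (F := {x | x 1 < -M}) (convex_halfSpace_lt (f := fun y : V => y 1)
        ⟨fun _ _ => rfl, fun _ _ => rfl⟩ (-M)).isPreconnected
      (fun x (hx : x 1 < -M) (h : -M ≤ x 1) => not_le.2 hx h)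
      (z := ![0, -M - 1, zl 2]) (by simp)
      (fun h => disjoint_left.1 Z.toPln.disjoint (Pln.low (z := ![0, -M - 1, zl 2]) hzl) h.1) x hx
    rcases Z.tri x with h | h | h
    exacts [h, (Pln.Dn_sub hD ((r2 x (not_le.2 hx)).1 h)).elim, (this ⟨h, hD⟩).elim]

end Str

end Crest.Agent.X212.Prd34
end

-- ▼ part X212/Prd34/Blk0
section

/-!
# X212 / T layer: the block between two tori is a product (`k = 0`) (helper34)
-/

set_option autoImplicit false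

open Set Metric Topology

namespace Crest.Agent.X212.Prd34

open Crest.Agent.R096.Ce_537 Crest.Agent.X212.Lad50

/-- the closed region between two vertical annuli -/
def sub (u u' : P → V) (t t' : ℝ) (a a' : P → V) : Set V :=
  Up (zp u u' t a) ∩ Dn (zp u u' t' a') ∪
    (u '' band t t' ∪ u' '' band t t' ∪ a '' strip ∪ a' '' strip)

variable {H : V → V} {c t t' : ℝ} {u u' a a' : P → V}

namespace Str

lemma four (S : Str H u u' t a) (S' : Str H u u' t' a') (C : Ctx H c u u') (h : t < t')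
    (h1 : t' - t < 1) (hd : ∀ y ∈ strip, ∀ y' ∈ strip, H (a y) ≠ H (a' y')) :
    Four H t t' u u' a a' := by
  have h2 : (2 : Fin 3) ∉ ({0, 1} : Finset (Fin 3)) := by decide
  have fu : ∀ {v : P → V} {d : ℝ}, Rung ∅ {0, 1} H d (1 / 3) v → ∀ y y' : P, y 1 ∈ Icc t t' →
      y' 1 ∈ Icc t t' → (H (v y) = H (v y') ↔ y 1 = y' 1 ∧ ∃ m : ℤ, y 0 - y' 0 = m) := by
    intro v d hv y y' hy hy'
    rw [hv.fib h2 C.hH, mem_lat_two]
    constructor
    · rintro ⟨k, m, e⟩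
      have e1 : y 1 - y' 1 = m := congrFun e 1
      have : |m| < 1 := by
        have : |(m : ℝ)| < 1 := by
          rw [← e1]; exact abs_lt.2 ⟨by linarith [hy.1, hy'.2], by linarith [hy.2, hy'.1]⟩
        exact_mod_cast this
      rw [Int.abs_lt_one_iff.1 this] at e1
      exact ⟨sub_eq_zero.1 (by simpa using e1), k, congrFun e 0⟩
    · rintro ⟨e, k, hk⟩
      exact ⟨k, 0, by funext i; fin_cases i <;> simp [hk, e]⟩
  have ma : ∀ {s : ℝ} {b : P → V}, Str H u u' s b → ∀ y : P, 0 < y 1 → y 1 < 1 → ∀ y',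
      H (b y) ≠ H (u y') ∧ H (b y) ≠ H (u' y') := fun R y h0 h1 y' =>
    ⟨C.hu.ne_of_not_mem h2 C.hH (Pln.Up_sub (R.mid y h0 h1).1) _,
      C.hu'.ne_of_not_mem h2 C.hH (Pln.Dn_sub (R.mid y h0 h1).2) _⟩
  exact ⟨h, C.hu.cont, C.hu'.cont, S.cont, S'.cont, C.hu.pl, C.hu'.pl, S.pl, S'.pl, S.bot, S.top,
    S'.bot, S'.top, fu C.hu, fu C.hu', S.fib, S'.fib,
    fun y y' => C.hu'.ne_of_not_mem h2 C.hH (Pln.Dn_sub (C.ud y)) _, hd, ma S, ma S'⟩

lemma mono (S : Str H u u' t a) (S' : Str H u u' t' a') (C : Ctx H c u u') (h : t < t')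
    (hd : ∀ y ∈ strip, ∀ y' ∈ strip, a y ≠ a' y') :
    Dn (zp u u' t a) ⊆ Dn (zp u u' t' a') ∧ Up (zp u u' t' a') ⊆ Up (zp u u' t a) := by
  have h1 := (S.pln C).toPln2.Dn_mono (S'.pln C).toPln2 (S.le S' C h hd)
  exact ⟨h1, (S.pln C).toPln2.Up_mono (S'.pln C).toPln2
    ((S.pln C).toPln2.le_Dn (S'.pln C).toPln2 h1)⟩

lemma memU (S : Str H u u' t a) (S' : Str H u u' t' a') (C : Ctx H c u u') (h : t < t') {y : P}
    (hy : u y ∈ sub u u' t t' a a') : y 1 ∈ Icc t t' := by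
  rcases hy with k | ((⟨w, hw, e⟩ | ⟨w, hw, e⟩) | ⟨w, hw, e⟩) | ⟨w, hw, e⟩
  · exact (Pln.Up_sub (S.Up_u C k.1) ⟨y, rfl⟩).elim
  · exact C.hu.inj e ▸ hw
  · exact (C.ne _ _ e.symm).elim
  · rw [(S.eq_u C hw e).2]; exact ⟨le_rfl, h.le⟩
  · rw [(S'.eq_u C hw e).2]; exact ⟨h.le, le_rfl⟩

lemma memU' (S : Str H u u' t a) (S' : Str H u u' t' a') (C : Ctx H c u u') (h : t < t') {y : P}
    (hy : u' y ∈ sub u u' t t' a a') : y 1 ∈ Icc t t' := by
  rcases hy with k | ((⟨w, hw, e⟩ | ⟨w, hw, e⟩) | ⟨w, hw, e⟩) | ⟨w, hw, e⟩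
  · exact (Pln.Dn_sub (S'.Dn_u' C k.2) ⟨y, rfl⟩).elim
  · exact (C.ne _ _ e).elim
  · exact C.hu'.inj e ▸ hw
  · rw [(S.eq_u' C hw e).2]; exact ⟨le_rfl, h.le⟩
  · rw [(S'.eq_u' C hw e).2]; exact ⟨h.le, le_rfl⟩

lemma between (S : Str H u u' t a) (S' : Str H u u' t' a') (C : Ctx H c u u') (h : t < t')
    (hd : ∀ y ∈ strip, ∀ y' ∈ strip, a y ≠ a' y') {x : V} (hx : x ∈ sub u u' t t' a a') :
    x ∉ Dn (zp u u' t a) ∧ x ∉ Up (zp u u' t' a') := by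
  obtain ⟨m1, m2⟩ := S.mono S' C h hd
  have d := disjoint_left.1 (S.pln C).toPln.disjoint
  have d' := disjoint_left.1 (S'.pln C).toPln.disjoint
  have k1 : x ∈ range (zp u u' t a) → x ∉ Dn (zp u u' t a) ∧ x ∉ Up (zp u u' t' a') :=
    fun k => ⟨fun h => Pln.Dn_sub h k, fun h => Pln.Up_sub (m2 h) k⟩
  have k2 : x ∈ range (zp u u' t' a') → x ∉ Dn (zp u u' t a) ∧ x ∉ Up (zp u u' t' a') :=
    fun k => ⟨fun h => Pln.Dn_sub (m1 h) k, fun h => Pln.Up_sub h k⟩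
  rcases hx with k | ((⟨w, hw, e⟩ | ⟨w, hw, e⟩) | k) | k
  · exact ⟨fun h => d h k.1, d' k.2⟩
  · exact k1 (S.mem_range.2 (Or.inr (Or.inr ⟨w, hw.1, e⟩)))
  · exact k2 (S'.mem_range.2 (Or.inl ⟨w, hw.2, e⟩))
  · exact k1 (S.mem_range.2 (Or.inr (Or.inl k)))
  · exact k2 (S'.mem_range.2 (Or.inr (Or.inl k)))

lemma sub_blk' (S : Str H u u' t a) (S' : Str H u u' t' a') (C : Ctx H c u u') (h : t < t')
    (hd : ∀ y ∈ strip, ∀ y' ∈ strip, a y ≠ a' y') : sub u u' t t' a a' ⊆ Blk ∅ u u' := by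
  intro x hx
  obtain ⟨h1, h2⟩ := S.between S' C h hd hx
  exact ⟨⟨fun i hi => absurd hi (Finset.notMem_empty i),
    C.p.toPln2.compl_Dn ▸ fun k => h1 (S.Dn_u C k)⟩,
    C.p'.toPln2.compl_Up ▸ fun k => h2 (S'.Up_u' C k)⟩

lemma sub_closed (S : Str H u u' t a) (S' : Str H u u' t' a') (C : Ctx H c u u') (h : t < t')
    (hd : ∀ y ∈ strip, ∀ y' ∈ strip, a y ≠ a' y') : IsClosed (sub u u' t t' a a') := by
  have cb : IsClosed (band t t') := isClosed_Icc.preimage (continuous_apply 1)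
  refine (S.pln C).isClosed_between (S'.pln C).toPln2 (S.mono S' C h hd).1
    ((((C.p.isClosedEmbedding.isClosedMap _ cb).union
      (C.p'.isClosedEmbedding.isClosedMap _ cb)).union (S.isClosed C)).union (S'.isClosed C))
    fun x hx => ?_
  rw [S.mem_range, S'.mem_range]
  constructor
  · rintro (⟨y, hy, e⟩ | k | ⟨y, hy, e⟩)
    · exact Or.inl ⟨y, hy.trans h.le, e⟩
    · exact (hx (Or.inl (Or.inr k))).elim
    · exact Or.inr (Or.inr ⟨y, le_of_not_ge fun k =>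
        hx (Or.inl (Or.inl (Or.inl ⟨y, ⟨hy, k⟩, e⟩))), e⟩)
  · rintro (⟨y, hy, e⟩ | k | ⟨y, hy, e⟩)
    · exact Or.inl ⟨y, le_of_not_ge fun k => hx (Or.inl (Or.inl (Or.inr ⟨y, ⟨k, hy⟩, e⟩))), e⟩
    · exact (hx (Or.inr k)).elim
    · exact Or.inr (Or.inr ⟨y, h.le.trans hy, e⟩)

/-- **the region between two vertical annuli is a solid torus** -/
theorem fill (S : Str H u u' t a) (S' : Str H u u' t' a') (C : Ctx H c u u') (hS : SolidStmt)
    (h : t < t') (h1 : t' - t < 1) (hd : ∀ y ∈ strip, ∀ y' ∈ strip, H (a y) ≠ H (a' y'))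
    {s s' : ℝ} (es : s = t) (es' : s' = t') :
    ∃ G : P × ℝ → V, LPL G (rct s s' c ×ˢ univ) ∧
      (∀ p ∈ rct s s' c ×ˢ (univ : Set ℝ), (p.1 1 = c → G p = H (u ![p.2, p.1 0])) ∧
        (p.1 1 = c + 1 → G p = H (u' ![p.2, p.1 0])) ∧
        (p.1 0 = s → G p = H (a ![p.2, p.1 1 - c])) ∧
        (p.1 0 = s' → G p = H (a' ![p.2, p.1 1 - c]))) ∧
      (∀ p ∈ rct s s' c ×ˢ (univ : Set ℝ), ∀ p' ∈ rct s s' c ×ˢ (univ : Set ℝ),
        G p = G p' ↔ p.1 = p'.1 ∧ ∃ m : ℤ, p.2 - p'.2 = m) ∧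
      G '' (rct s s' c ×ˢ univ) = H '' sub u u' t t' a a' := by
  subst es es'
  have F := S.four S' C h h1 hd
  have hd' : ∀ y ∈ strip, ∀ y' ∈ strip, a y ≠ a' y' := fun y hy y' hy' e =>
    hd y hy y' hy' (congrArg H e)
  have Z := S.pln C
  have Z' := S'.pln C
  have cl := S.sub_closed S' C h hd'
  have le := S.le S' C h hd'
  obtain ⟨r, cr, r1, r2⟩ := Z.toPln2.exists_retr Z'.toPln2 le
  let π : P → P := fun y => ![y 0, max s (min s' (y 1))]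
  have π1 : ∀ y, π y ∈ band s s' := fun y =>
    ⟨le_max_left _ _, max_le h.le (min_le_left _ _)⟩
  have π2 : ∀ y : P, y 1 ∈ Icc s s' → π y = y := fun y hy => by
    simp only [π, min_eq_right hy.2, max_eq_right hy.1, eta2]
  obtain ⟨ρ, c1, a1, b1⟩ := collapse (cl.union C.p'.isClosed) C.p.isClosedEmbedding
    (π := π) (by fun_prop) (fun y => Or.inl (Or.inr (Or.inl (Or.inl (Or.inl ⟨_, π1 y, rfl⟩)))))
    fun y hy => π2 y (S.memU S' C h (hy.resolve_right (Pln.Dn_sub (C.ud y))))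
  obtain ⟨σ, c2, a2, b2⟩ := collapse cl C.p'.isClosedEmbedding (π := π) (by fun_prop)
    (fun y => Or.inr (Or.inl (Or.inl (Or.inr ⟨_, π1 y, rfl⟩)))) fun y hy => π2 y (S.memU' S' C h hy)
  have rm : ∀ x, r x ∈ sub u u' s s' a a' ∪ range u' ∪ range u := fun x => by
    have k : ∀ {τ : ℝ} {b : P → V}, Str H u u' τ b → b '' strip ⊆ sub u u' s s' a a' →
        r x ∈ range (zp u u' τ b) → r x ∈ sub u u' s s' a a' ∪ range u' ∪ range u := by
      intro τ b R hb hx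
      rcases R.mem_range.1 hx with ⟨y, -, e⟩ | k | ⟨y, -, e⟩
      exacts [Or.inl (Or.inr ⟨y, e⟩), Or.inl (Or.inl (hb k)), Or.inr ⟨y, e⟩]
    obtain ⟨k1 | k1, k2 | k2⟩ := r1 x
    · exact Or.inl (Or.inl (Or.inl ⟨k1, k2⟩))
    · exact k S' (fun _ h => Or.inr (Or.inr h)) k2
    · exact k S (fun _ h => Or.inr (Or.inl (Or.inr h))) k1
    · exact k S (fun _ h => Or.inr (Or.inl (Or.inr h))) k1
  refine F.fill C.hF hS C.hH c (Z.isOpen_Up.inter Z'.isOpen_Dn) ?_ rfl ?_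
    (r := fun x => σ (ρ (r x))) (c2.comp_continuous (c1.comp_continuous cr rm) fun x => a1 _)
    (fun x => a2 _) fun x hx => ?_
  · have m : u' ![0, s'] ∈ range (zp u u' s' a') := S'.mem_range.2 (Or.inl ⟨_, le_rfl, rfl⟩)
    have m' : u' ![0, s'] ∈ Up (zp u u' s a) := (le m).resolve_right fun k => by
      rcases S.mem_range.1 k with ⟨y, hy, e⟩ | ⟨y, hy, e⟩ | ⟨y, -, e⟩
      · rw [C.hu'.inj e] at hy; exact not_le.2 h hy
      · exact h.ne' (congrFun (S.eq_u' C hy e).2 1)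
      · exact C.ne _ _ e
    obtain ⟨y, hy⟩ := m
    exact closure_nonempty_iff.1 ⟨_, Z.isOpen_Up.inter_closure ⟨m', hy ▸ Z'.cl_Dn y⟩⟩
  · obtain ⟨M, hM⟩ := S.far C
    obtain ⟨M', hM'⟩ := S'.far C
    have cT := tor_compact (F.tor c)
    rw [← image_image H, F.img] at cT
    have e : H '' sub u u' s s' a a' =
        H '' (closedBall 0 (max 1 (max (max M M') (|c| + 2))) ∩ sub u u' s s' a a') ∪
          H '' (u '' band s s' ∪ u' '' band s s' ∪ a '' strip ∪ a' '' strip) := by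
      refine Subset.antisymm ?_ (union_subset (image_mono inter_subset_right)
        (image_mono subset_union_right))
      rintro _ ⟨x, hx | hx, rfl⟩
      · have z : ∀ b : P → V, ∀ y, b y = b y + ![0, ((0 : ℤ) : ℝ), 0] := fun b y => by
          funext i; fin_cases i <;> simp
        refine Or.inl ⟨x + ![((-⌊x 0⌋ : ℤ) : ℝ), ((0 : ℤ) : ℝ), 0], ⟨?_, Or.inl
          ⟨Up_add rfl (S.shift S C _ 0 (by simp) (z a)) hx.1,
            Dn_add rfl (S'.shift S' C _ 0 (by simp) (z a')) hx.2⟩⟩,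
          C.hH.add _ (mem_lat_two.2 ⟨_, _, rfl⟩)⟩
        have u1 := S.Up_u C hx.1
        have u2 := S'.Dn_u' C hx.2
        have b1 := lt_of_mem_up C.hu C.p.toPln2.sepH (Or.inl u1)
        have b2 := lt_of_mem_dn C.hu' C.p'.toPln2.sepH (Or.inl u2)
        have b3 : -M ≤ x 1 := le_of_not_gt fun k =>
          disjoint_left.1 Z.toPln.disjoint ((hM x).2 k u2) hx.1
        have b4 : x 1 ≤ M' := le_of_not_gt fun k =>
          disjoint_left.1 Z'.toPln.disjoint hx.2 ((hM' x).1 k u1)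
        rw [mem_closedBall_zero_iff, pi_norm_le_iff_of_nonneg (le_max_of_le_left zero_le_one)]
        intro i
        fin_cases i
        · refine le_max_of_le_left (abs_le.2 ⟨?_, ?_⟩)
          · show _ ≤ x 0 + ((-⌊x 0⌋ : ℤ) : ℝ); push_cast; linarith [Int.floor_le (x 0)]
          · show x 0 + ((-⌊x 0⌋ : ℤ) : ℝ) ≤ _; push_cast; linarith [Int.lt_floor_add_one (x 0)]
        · refine le_max_of_le_right (le_max_of_le_left (abs_le.2 ⟨?_, ?_⟩))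
          · show _ ≤ x 1 + ((0 : ℤ) : ℝ); push_cast; linarith [le_max_left M M']
          · show x 1 + ((0 : ℤ) : ℝ) ≤ _; push_cast; linarith [le_max_right M M']
        · refine le_max_of_le_right (le_max_of_le_right (abs_le.2 ⟨?_, ?_⟩))
          · show _ ≤ x 2 + 0; linarith [neg_abs_le c]
          · show x 2 + 0 ≤ _; linarith [le_abs_self c]
      · exact Or.inr ⟨x, hx, rfl⟩
    show IsCompact (H '' sub u u' s s' a a')
    rw [e]
    exact (((isCompact_closedBall _ _).inter_right cl).image C.hH.cont).union cT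
  · obtain ⟨k1, k2⟩ := S.between S' C h hd' hx
    rw [r2 x ⟨Z.toPln2.compl_Dn ▸ k1, Z'.toPln2.compl_Up ▸ k2⟩, b1 x (Or.inl hx), b2 x hx]

end Str

/-- **torus blocks** -/
theorem blk_zero (hF : FlatStmt) (hS : SolidStmt) (hA : AnnStmt) : BlkStmt ∅ {0, 1} := by
  classical
  intro H hH _ c u u' hu hu'
  have C : Ctx H c u u' := ⟨hF, hH, hu, hu'⟩
  have h2 : (2 : Fin 3) ∉ ({0, 1} : Finset (Fin 3)) := by decide
  obtain ⟨a, ha⟩ := hA H hH c u u' hu hu'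
  let A : Fin 2 → ℤ → P → V := fun j m y => a j y + ![0, (m : ℝ), 0]
  let τ : Fin 2 → ℤ → ℝ := fun j m => ((j : ℕ) : ℝ) / 2 + m
  have lt : ∀ k m : ℤ, (![(k : ℝ), (m : ℝ), 0] : V) ∈ lat {0, 1} := fun k m =>
    mem_lat_two.2 ⟨k, m, rfl⟩
  have HA : ∀ j m y, H (A j m y) = H (a j y) := fun j m y =>
    hH.add _ (mem_lat_two.2 ⟨0, m, by simp⟩)
  have sh : ∀ {v : P → V} {d : ℝ}, Rung ∅ {0, 1} H d (1 / 3) v → ∀ (s r : ℝ) (m : ℤ),
      v ![s, r + m] = v ![s, r] + ![0, (m : ℝ), 0] := fun hv s r m => by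
    simpa using hv.shift s r 0 m
  have S : ∀ j m, Str H u u' (τ j m) (A j m) := fun j m => by
    obtain ⟨a1, a2, a3, a4, a5, a6⟩ := ha j
    have l0 : (![0, (m : ℝ), 0] : V) ∈ lat {0, 1} := by simpa using lt 0 m
    refine ⟨a1.add continuousOn_const, fun y hy k => ?_, fun s => ?_, fun s => ?_,
      fun y h0 h1 => ⟨hu.add_Up h2 l0 (a4 y h0 h1).1, hu'.add_Dn h2 l0 (a4 y h0 h1).2⟩,
      a5.congr fun y _ => HA j m y, fun y hy y' hy' => ?_⟩
    · simp only [A]; rw [a2 y hy, add_right_comm]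
    · simp only [A, τ]; rw [(a3 s).1, sh hu]
    · simp only [A, τ]; rw [(a3 s).2, sh hu']
    · rw [HA, HA]
      refine ⟨fun e => (a6 j y hy y' hy' e).2.symm, fun ⟨e, k, hk⟩ => ?_⟩
      rw [← eta2 y, e, show y 0 = y' 0 + k by linarith, a2 y' hy']
      exact hH.add _ (mem_lat_two.2 ⟨k, 0, by simp⟩)
  have dj : ∀ j m j' m', τ j m < τ j' m' → ∀ y ∈ strip, ∀ y' ∈ strip, A j m y ≠ A j' m' y' := by
    intro j m j' m' h y hy y' hy' e
    obtain ⟨rfl, ⟨k, hk⟩, e1⟩ := (ha j).2.2.2.2.2 j' y hy y' hy' (by rw [← HA j m, e, HA])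
    simp only [A] at e
    rw [← eta2 y, e1, show y 0 = y' 0 + k by linarith, (ha j).2.1 y' hy'] at e
    have : a j y' 1 + 0 + m = a j y' 1 + m' := congrFun e 1
    simp only [τ] at h
    linarith
  have mn : ∀ j m m', m ≤ m' → Dn (zp u u' (τ j m) (A j m)) ⊆ Dn (zp u u' (τ j m') (A j m')) ∧
      Up (zp u u' (τ j m') (A j m')) ⊆ Up (zp u u' (τ j m) (A j m)) := fun j m m' h => by
    rcases h.eq_or_lt with rfl | h
    · exact ⟨Subset.rfl, Subset.rfl⟩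
    · have : τ j m < τ j m' := by
        have : (m : ℝ) < m' := by exact_mod_cast h
        simp only [τ]; linarith
      exact (S j m).mono (S j m') C this (dj _ _ _ _ this)
  have tr : ∀ j (m n k m' : ℤ), m' = m + n → ∀ x, x + ![(k : ℝ), (n : ℝ), 0] ∈
      range (zp u u' (τ j m') (A j m')) → x ∈ range (zp u u' (τ j m) (A j m)) := by
    rintro j m n k _ rfl
    refine (S j m).shift (S j (m + n)) C k n (by simp only [τ]; push_cast; ring) fun y => ?_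
    simp only [A]; rw [add_assoc]; congr 1
    funext i; fin_cases i <;> simp
  have t0 : (0 : ℝ) = τ 0 0 := by simp [τ]
  have t1 : (1 / 2 : ℝ) = τ 1 0 := by simp [τ]
  have t2 : (1 : ℝ) = τ 0 1 := by simp [τ]
  have l01 : τ 0 0 < τ 1 0 := by linarith
  have l12 : τ 1 0 < τ 0 1 := by linarith
  obtain ⟨G0, p0, b0, f0, i0⟩ := (S 0 0).fill (S 1 0) C hS l01 (by linarith) (fun y hy y' hy' e =>
    absurd ((ha 0).2.2.2.2.2 1 y hy y' hy' (by rw [← HA 0 0, e, HA])).1 (by decide)) t0 t1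
  obtain ⟨G1, p1, b1, f1, i1⟩ := (S 1 0).fill (S 0 1) C hS l12 (by linarith) (fun y hy y' hy' e =>
    absurd ((ha 1).2.2.2.2.2 0 y hy y' hy' (by rw [← HA 1 0, e, HA])).1 (by decide)) t1 t2
  have hW : ∀ z₀ ∈ sub u u' (τ 0 0) (τ 1 0) (A 0 0) (A 1 0),
      ∀ z₁ ∈ sub u u' (τ 1 0) (τ 0 1) (A 1 0) (A 0 1), H z₀ = H z₁ →
      z₁ ∈ A 1 0 '' strip ∪ A 0 1 '' strip := by
    intro z₀ h₀ z₁ h₁ e
    obtain ⟨k, m, hl⟩ := mem_lat_two.1 ((hH.fib _ _).1 e)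
    have e' : z₁ + ![(k : ℝ), (m : ℝ), 0] = z₀ := by rw [← hl]; simp
    have it : ∀ r : ℝ, r ∈ Icc (τ 1 0) (τ 0 1) → r + m ∈ Icc (τ 0 0) (τ 1 0) →
        r = τ 1 0 ∨ r = τ 0 1 := fun r h h' => by
      rcases le_or_gt 0 m with q | q
      · have : (0 : ℝ) ≤ m := by exact_mod_cast q
        exact Or.inl (by linarith [h.1, h'.2])
      · have : (m : ℝ) ≤ ((-1 : ℤ) : ℝ) := by exact_mod_cast (by omega : m ≤ -1)
        push_cast at this
        exact Or.inr (by linarith [h.2, h'.1])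
    have s0 : ∀ s : ℝ, (![s, 0] : P) ∈ strip := fun s => ⟨le_rfl, zero_le_one⟩
    have s1 : ∀ s : ℝ, (![s, 1] : P) ∈ strip := fun s => ⟨zero_le_one, le_rfl⟩
    rcases h₁ with q | ((⟨w, hw, rfl⟩ | ⟨w, hw, rfl⟩) | q) | q
    · exfalso
      obtain ⟨n1, n2⟩ := (S 0 0).between (S 1 0) C l01 (dj _ _ _ _ l01) h₀
      rcases le_or_gt 0 m with q' | q'
      · exact n2 (e' ▸ Up_add rfl (tr 1 (-m) m k 0 (by ring)) ((mn 1 (-m) 0 (by omega)).2 q.1))
      · exact n1 (e' ▸ Dn_add rfl (tr 0 (-m) m k 0 (by ring)) ((mn 0 1 (-m) (by omega)).1 q.2))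
    · rw [← e', ← eta2 w, ← hu.shift] at h₀
      rcases it _ hw ((S 0 0).memU (S 1 0) C l01 h₀) with r | r
      · exact Or.inl ⟨_, s0 (w 0), by rw [(S 1 0).bot, ← r, eta2]⟩
      · exact Or.inr ⟨_, s0 (w 0), by rw [(S 0 1).bot, ← r, eta2]⟩
    · rw [← e', ← eta2 w, ← hu'.shift] at h₀
      rcases it _ hw ((S 0 0).memU' (S 1 0) C l01 h₀) with r | r
      · exact Or.inl ⟨_, s1 (w 0), by rw [(S 1 0).top, ← r, eta2]⟩
      · exact Or.inr ⟨_, s1 (w 0), by rw [(S 0 1).top, ← r, eta2]⟩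
    · exact Or.inl q
    · exact Or.inr q
  let g : P × ℝ → V := fun p => if p.1 0 ≤ 1 / 2 then G0 p else G1 p
  have g0 : ∀ p ∈ rct 0 (1 / 2) c ×ˢ (univ : Set ℝ), g p = G0 p := fun p hp => if_pos hp.1.1.2
  have g1 : ∀ p ∈ rct (1 / 2) 1 c ×ˢ (univ : Set ℝ), g p = G1 p := fun p hp => by
    rcases hp.1.1.1.eq_or_lt with h | h
    · have hp' : p ∈ rct 0 (1 / 2) c ×ˢ (univ : Set ℝ) :=
        ⟨⟨⟨by linarith, h.ge⟩, hp.1.2⟩, trivial⟩
      rw [g0 p hp', (b0 p hp').2.2.2 h.symm, (b1 p hp).2.2.1 h.symm]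
    · exact if_neg (not_le.2 h)
  have cs : ∀ p ∈ rct 0 1 c ×ˢ (univ : Set ℝ), p ∈ rct 0 (1 / 2) c ×ˢ (univ : Set ℝ) ∨
      (p ∈ rct (1 / 2) 1 c ×ˢ (univ : Set ℝ) ∧ 1 / 2 < p.1 0) := fun p hp =>
    (le_or_gt (p.1 0) (1 / 2)).imp (fun h => ⟨⟨⟨hp.1.1.1, h⟩, hp.1.2⟩, trivial⟩)
      fun h => ⟨⟨⟨⟨h.le, hp.1.1.2⟩, hp.1.2⟩, trivial⟩, h⟩
  have pg : LPL g (rct 0 1 c ×ˢ univ) :=
    ((p0.congr g0).union (p1.congr g1) ((isClosed_rct _ _ _).prod isClosed_univ)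
      ((isClosed_rct _ _ _).prod isClosed_univ)).mono fun p hp => (cs p hp).imp_right And.left
  have mix : ∀ p ∈ rct 0 (1 / 2) c ×ˢ (univ : Set ℝ), ∀ q ∈ rct (1 / 2) 1 c ×ˢ (univ : Set ℝ),
      1 / 2 < q.1 0 → q.1 0 < 1 → G0 p ≠ G1 q := by
    intro p hp q hq k1 k2 e
    obtain ⟨z₀, h₀, e₀⟩ := i0.subset ⟨p, hp, rfl⟩
    obtain ⟨z₁, h₁, e₁⟩ := i1.subset ⟨q, hq, rfl⟩
    have m : ∀ (r : ℝ) (y : P), r ∈ Icc (1 / 2 : ℝ) 1 → y ∈ strip →
        ((![r, c + y 1], y 0) : P × ℝ) ∈ rct (1 / 2) 1 c ×ˢ (univ : Set ℝ) := fun r y hr hy =>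
      ⟨⟨hr, by simpa using hy.1, by simpa using hy.2⟩, trivial⟩
    rcases hW z₀ h₀ z₁ h₁ (by rw [e₀, e₁, e]) with ⟨y, hy, rfl⟩ | ⟨y, hy, rfl⟩
    · have hm := m (1 / 2) y ⟨le_rfl, by norm_num⟩ hy
      have := ((f1 _ hq _ hm).1 (by rw [(b1 _ hm).2.2.1 rfl, ← e₁]; simp [eta2])).1
      exact k1.ne' (congrFun this 0)
    · have hm := m 1 y ⟨by norm_num, le_rfl⟩ hy
      have := ((f1 _ hq _ hm).1 (by rw [(b1 _ hm).2.2.2 rfl, ← e₁]; simp [eta2])).1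
      exact k2.ne (congrFun this 0)
  have fg : ∀ p ∈ rct 0 1 c ×ˢ (univ : Set ℝ), ∀ q ∈ rct 0 1 c ×ˢ (univ : Set ℝ), p.1 0 < 1 →
      q.1 0 < 1 → (g p = g q ↔ p.1 = q.1 ∧ ∃ m : ℤ, p.2 - q.2 = m) := by
    intro p hp q hq k1 k2
    rcases cs p hp with h | h <;> rcases cs q hq with h' | h'
    · rw [g0 p h, g0 q h', f0 p h q h']
    · rw [g0 p h, g1 q h'.1]
      exact ⟨fun e => (mix p h q h'.1 h'.2 k2 e).elim,
        fun e => absurd h.1.1.2 (by rw [e.1]; exact not_le.2 h'.2)⟩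
    · rw [g1 p h.1, g0 q h']
      exact ⟨fun e => (mix q h' p h.1 h.2 k1 e.symm).elim,
        fun e => absurd h'.1.1.2 (by rw [← e.1]; exact not_le.2 h.2)⟩
    · rw [g1 p h.1, g1 q h'.1, f1 p h.1 q h'.1]
  let κ : ℤ → V → P × ℝ := fun m x => (![x 1 - m, x 2], x 0)
  have mκ : ∀ (m : ℤ), ∀ x ∈ Lay ∅ c, (m : ℝ) ≤ x 1 → x 1 ≤ m + 1 →
      κ m x ∈ rct 0 1 c ×ˢ (univ : Set ℝ) := fun m x hx k1 k2 =>
    ⟨⟨⟨sub_nonneg.2 k1, by show x 1 - m ≤ 1; linarith⟩, hx.2⟩, trivial⟩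
  have mf : ∀ x ∈ Lay ∅ c, κ ⌊x 1⌋ x ∈ rct 0 1 c ×ˢ (univ : Set ℝ) := fun x hx =>
    mκ _ x hx (Int.floor_le _) (Int.lt_floor_add_one _).le
  have Gm : ∀ (m : ℤ), ∀ x ∈ Lay ∅ c, (m : ℝ) ≤ x 1 → x 1 ≤ m + 1 →
      g (κ ⌊x 1⌋ x) = g (κ m x) := fun m x hx k1 k2 => by
    rcases k2.lt_or_eq with h | h
    · rw [Int.floor_eq_iff.2 ⟨k1, h⟩]
    · have e : ⌊x 1⌋ = m + 1 := by rw [h]; exact_mod_cast Int.floor_intCast (R := ℝ) (m + 1)
      have e0 : (κ (m + 1) x).1 0 = 0 := by show x 1 - ((m + 1 : ℤ) : ℝ) = 0; push_cast; linarith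
      have e1 : (κ m x).1 0 = 1 := by show x 1 - m = 1; linarith
      have q0 : κ (m + 1) x ∈ rct 0 (1 / 2) c ×ˢ (univ : Set ℝ) :=
        ⟨⟨by rw [e0]; norm_num, hx.2⟩, trivial⟩
      have q1 : κ m x ∈ rct (1 / 2) 1 c ×ˢ (univ : Set ℝ) :=
        ⟨⟨by rw [e1]; norm_num, hx.2⟩, trivial⟩
      rw [e, g0 _ q0, g1 _ q1, (b0 _ q0).2.2.1 e0, (b1 _ q1).2.2.2 e1, HA, HA]
      rfl
  have lv' : ∀ {v : P → V} {d : ℝ}, Rung ∅ {0, 1} H d (1 / 3) v → ∀ x : V,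
      H (v ![x 0, x 1 - ⌊x 1⌋]) = H (v (pr x)) := fun hv x => by
    have := hv.shift (x 0) (x 1 - ⌊x 1⌋) 0 ⌊x 1⌋
    rw [sub_add_cancel, Int.cast_zero, add_zero] at this
    rw [show pr x = ![x 0, x 1] from rfl, this, hH.add _ (mem_lat_two.2 ⟨0, ⌊x 1⌋, by simp⟩)]
  have bot : ∀ x ∈ Lay ∅ c, x 2 = c → g (κ ⌊x 1⌋ x) = H (u (pr x)) := fun x hx h => by
    rw [← lv' hu]
    rcases cs _ (mf x hx) with q | q
    · rw [g0 _ q, (b0 _ q).1 h]; rfl
    · rw [g1 _ q.1, (b1 _ q.1).1 h]; rfl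
  have top : ∀ x ∈ Lay ∅ c, x 2 = c + 1 → g (κ ⌊x 1⌋ x) = H (u' (pr x)) := fun x hx h => by
    rw [← lv' hu']
    rcases cs _ (mf x hx) with q | q
    · rw [g0 _ q, (b0 _ q).2.1 h]; rfl
    · rw [g1 _ q.1, (b1 _ q.1).2.1 h]; rfl
  have sl : ∀ x, x ∈ slab ∅ := fun x i hi => absurd hi (Finset.notMem_empty i)
  refine ⟨fun x => g (κ ⌊x 1⌋ x), lpl_iff.2 fun x hx => ?_, bot, top,
    fun x _ ⟨i, hi, _⟩ => absurd hi (Finset.notMem_empty i), fun x hx y hy => ?_, ?_⟩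
  · have cl : ∀ m : ℤ, IsClosed (Lay ∅ c ∩ {x : V | x 1 ∈ Icc (m : ℝ) (m + 1)}) := fun m =>
      (isClosed_lay _ _).inter (isClosed_Icc.preimage (continuous_apply 1))
    have pm : ∀ m : ℤ, LPL (fun x => g (κ ⌊x 1⌋ x))
        (Lay ∅ c ∩ {x : V | x 1 ∈ Icc (m : ℝ) (m + 1)}) := fun m =>
      (pg.comp (lpl_of_plOn (pl_prod (pl_vec2 (pl_sub (pl_coord 1 _) (plOn_const _ _))
        (pl_coord 2 _)) (pl_coord 0 _))) fun x hx => mκ m x hx.1 hx.2.1 hx.2.2).congr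
        fun x hx => Gm m x hx.1 hx.2.1 hx.2.2
    have k1 := Int.floor_le (x 1)
    have k2 := Int.lt_floor_add_one (x 1)
    obtain ⟨N, hN, hp⟩ := lpl_iff.1 ((pm (⌊x 1⌋ - 1)).union (pm ⌊x 1⌋) (cl _) (cl _)) x
      (Or.inr ⟨hx, k1, k2.le⟩)
    refine ⟨N, nhdsWithin_le_of_mem ?_ hN, hp⟩
    filter_upwards [self_mem_nhdsWithin, mem_nhdsWithin_of_mem_nhds
      ((continuous_apply (A := fun _ : Fin 3 => ℝ) 1).continuousAt
        (Ioo_mem_nhds (a := (⌊x 1⌋ : ℝ) - 1) (b := ⌊x 1⌋ + 1) (by linarith) k2))] with y hy hy'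
    rcases le_total (y 1) ⌊x 1⌋ with h | h
    · exact Or.inl ⟨hy, by push_cast; exact hy'.1.le, by push_cast; linarith⟩
    · exact Or.inr ⟨hy, h, hy'.2.le⟩
  · rw [fg _ (mf x hx) _ (mf y hy) (Int.fract_lt_one (x 1)) (Int.fract_lt_one (y 1)), mem_lat_two]
    constructor
    · rintro ⟨e, k, hk⟩
      have e0 : x 1 - ⌊x 1⌋ = y 1 - ⌊y 1⌋ := congrFun e 0
      have e1 : x 2 = y 2 := congrFun e 1
      refine ⟨k, ⌊x 1⌋ - ⌊y 1⌋, ?_⟩
      funext i; fin_cases i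
      · exact hk
      · show x 1 - y 1 = ((⌊x 1⌋ - ⌊y 1⌋ : ℤ) : ℝ); push_cast; linarith
      · exact sub_eq_zero.2 e1
    · rintro ⟨k, m, e⟩
      refine ⟨?_, k, congrFun e 0⟩
      have e1 : Int.fract (x 1) = Int.fract (y 1) := Int.fract_eq_fract.2 ⟨m, congrFun e 1⟩
      have e2 : x 2 = y 2 := sub_eq_zero.1 (congrFun e 2)
      show ![Int.fract (x 1), x 2] = ![Int.fract (y 1), y 2]
      rw [e1, e2]
  · apply Subset.antisymm
    · rintro _ ⟨x, hx, rfl⟩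
      rcases cs _ (mf x hx) with q | q
      · exact image_mono ((S 0 0).sub_blk' (S 1 0) C l01 (dj _ _ _ _ l01))
          (i0.subset ⟨_, q, (g0 _ q).symm⟩)
      · exact image_mono ((S 1 0).sub_blk' (S 0 1) C l12 (dj _ _ _ _ l12))
          (i1.subset ⟨_, q.1, (g1 _ q.1).symm⟩)
    have key : ∀ p ∈ rct 0 1 c ×ˢ (univ : Set ℝ), g p ∈ (fun x => g (κ ⌊x 1⌋ x)) '' Lay ∅ c := by
      intro p hp
      have hx : (![p.2, p.1 0, p.1 1] : V) ∈ Lay ∅ c := ⟨sl _, hp.1.2⟩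
      refine ⟨_, hx, (Gm 0 _ hx (by simpa using hp.1.1.1) (by simpa using hp.1.1.2)).trans
        (congrArg g (Prod.ext ?_ rfl))⟩
      simpa [κ] using eta2 p.1
    have w0 : ∀ z ∈ sub u u' (τ 0 0) (τ 1 0) (A 0 0) (A 1 0),
        H z ∈ (fun x => g (κ ⌊x 1⌋ x)) '' Lay ∅ c := fun z hz => by
      obtain ⟨p, hp, e⟩ := i0.superset ⟨z, hz, rfl⟩
      rw [← e, ← g0 p hp]
      exact key p ⟨⟨⟨hp.1.1.1, hp.1.1.2.trans (by norm_num)⟩, hp.1.2⟩, trivial⟩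
    have w1 : ∀ z ∈ sub u u' (τ 1 0) (τ 0 1) (A 1 0) (A 0 1),
        H z ∈ (fun x => g (κ ⌊x 1⌋ x)) '' Lay ∅ c := fun z hz => by
      obtain ⟨p, hp, e⟩ := i1.superset ⟨z, hz, rfl⟩
      rw [← e, ← g1 p hp]
      exact key p ⟨⟨⟨le_trans (by norm_num) hp.1.1.1, hp.1.1.2⟩, hp.1.2⟩, trivial⟩
    rintro _ ⟨x, ⟨⟨-, hU | ⟨y, rfl⟩⟩, hD⟩, rfl⟩
    · rcases hD with hD | ⟨y, rfl⟩
      · obtain ⟨M, hM⟩ := (S 0 0).far C
        obtain ⟨n, hn, hmin⟩ := Int.exists_least_of_bdd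
          (P := fun n : ℤ => x + ![((0 : ℤ) : ℝ), (n : ℝ), 0] ∈ Up (zp u u' (τ 0 0) (A 0 0)))
          ⟨⌊-M - x 1⌋, fun n hn => by
            by_contra q
            have : (n : ℝ) < ⌊-M - x 1⌋ := by exact_mod_cast not_le.1 q
            exact disjoint_left.1 ((S 0 0).pln C).toPln.disjoint ((hM _).2 (by
              show x 1 + n < -M
              linarith [Int.floor_le (-M - x 1)]) (hu'.add_Dn h2 (lt 0 n) hD)) hn⟩
          ⟨⌊M - x 1⌋ + 1, (hM _).1 (by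
            show M < x 1 + ((⌊M - x 1⌋ + 1 : ℤ) : ℝ)
            push_cast; linarith [Int.lt_floor_add_one (M - x 1)]) (hu.add_Up h2 (lt 0 _) hU)⟩
        rw [← hH.add x (lt 0 n)]
        have hU' := hu.add_Up h2 (lt 0 n) hU
        have hD' := hu'.add_Dn h2 (lt 0 n) hD
        have n2 : x + ![((0 : ℤ) : ℝ), (n : ℝ), 0] ∉ Up (zp u u' (τ 0 1) (A 0 1)) := fun q => by
          have := Up_add rfl (tr 0 1 (-1) 0 0 (by ring)) q
          have e : x + ![((0 : ℤ) : ℝ), (n : ℝ), 0] + ![((0 : ℤ) : ℝ), ((-1 : ℤ) : ℝ), 0] =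
              x + ![((0 : ℤ) : ℝ), ((n - 1 : ℤ) : ℝ), 0] := by
            rw [add_assoc]; congr 1
            funext i; fin_cases i <;> simp [sub_eq_add_neg]
          rw [e] at this
          have := hmin _ this
          omega
        generalize x + ![((0 : ℤ) : ℝ), (n : ℝ), 0] = z at hn hU' hD' n2
        have st : ∀ j m, z ∈ range (zp u u' (τ j m) (A j m)) → z ∈ A j m '' strip := fun j m q => by
          rcases (S j m).mem_range.1 q with ⟨y, -, e⟩ | q | ⟨y, -, e⟩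
          exacts [(Pln.Dn_sub hD' ⟨y, e⟩).elim, q, (Pln.Up_sub hU' ⟨y, e⟩).elim]
        rcases ((S 1 0).pln C).tri z with q | q | q
        · exact w0 z (Or.inl ⟨hn, q⟩)
        · exact w0 z (Or.inr (Or.inr (st _ _ q)))
        · rcases ((S 0 1).pln C).tri z with q' | q' | q'
          · exact w1 z (Or.inl ⟨q, q'⟩)
          · exact w1 z (Or.inr (Or.inr (st _ _ q')))
          · exact (n2 q').elim
      · have hx : lv (c + 1) y ∈ Lay ∅ c := ⟨sl _, by simp, le_rfl⟩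
        exact ⟨_, hx, (top _ hx rfl).trans (by rw [pr_lv])⟩
    · have hx : lv c y ∈ Lay ∅ c := ⟨sl _, le_rfl, by simp⟩
      exact ⟨_, hx, (bot _ hx rfl).trans (by rw [pr_lv])⟩

end Crest.Agent.X212.Prd34
end

-- ▼ part X212/Sol49/Disc
section

/-!
Row 212, layer T, package SOLID (helper49), part 3: two disjoint meridian discs.
-/

set_option autoImplicit false
set_option linter.style.longLine false

open Set Metric Filter Topology

namespace Crest.Agent.X212.Sol49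

open Crest.Agent.R096.Ce_537 Crest.Agent.X212.Prd34 Crest.Agent.R096.Bd_416
open Crest.Agent.R096.Cx_609 (FinConv equivOfInjOn exists_equiv_of_bijOn finConv_sphere isBall_iff)

variable {Δ dΔ : Set P} {b : P × ℝ → V}

theorem mer_of_dehn (hD : DehnStmt) (h : Tor Δ dΔ b) {W M dM : Set V} (hM : Mf M dM) (hMW : M ⊆ W)
    (hMT : M ∩ b '' (dΔ ×ˢ univ) ⊆ dM) {s : ℝ} (hs : ∀ y ∈ dΔ, b (y, s) ∈ dM)
    (φ : PLEquiv (sph 2) dΔ) {f : P → V} (hf : ContinuousOn f (cube 2)) (hfM : MapsTo f (cube 2) M)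
    (hfb : ∀ y ∈ sph 2, f y = b (φ.f y, s)) : ∃ d, Mer Δ dΔ b W s d ∧ MapsTo d Δ M := by
  have p1 : PLOn (fun y => b (y, s)) dΔ := (h.plOn s s).comp (pl_pair (plOn_id _) (plOn_const s _))
    fun y hy => ⟨hy, left_mem_Icc.2 le_rfl⟩
  let β := equivOfInjOn (finConv_bd h.ball) h.ball.isClosed_bdry p1 fun y hy y' hy' e => (h.eq hy hy' e).1
  obtain ⟨D, d1, d2, d3⟩ := hD M dM _ (φ.trans β) f hM (by rintro _ ⟨y, hy, rfl⟩; exact hs y hy) hf hfM
    fun y hy => hfb y hy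
  obtain ⟨e, e1, -⟩ := h.ball.extend d1 β
  refine ⟨e.f, ⟨e.pf, e.injOn, fun y hy => hMW (d2 (e.mf hy)), fun y hy => e1 hy, fun y hy hT => ?_⟩,
    fun y hy => d2 (e.mf hy)⟩
  obtain ⟨y', hy', e2⟩ := d3.le ⟨e.mf hy, hMT ⟨d2 (e.mf hy), hT⟩⟩
  rw [e.injOn hy (h.ball.subset hy') (e2.symm.trans (e1 hy').symm)]
  exact hy'

open Classical in
/-- coordinates on the torus -/
noncomputable def crd (dΔ : Set P) (b : P × ℝ → V) (x : V) : P × ℝ :=
  if h : ∃ p ∈ dΔ ×ˢ Ico (0 : ℝ) 1, b p = x then h.choose else 0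

theorem Tor.fract (h : Tor Δ dΔ b) {y : P} (hy : y ∈ dΔ) (s : ℝ) : b (y, Int.fract s) = b (y, s) := by
  rw [← h.per hy (Int.fract s) ⌊s⌋, Int.fract_add_floor]

theorem Tor.crd_eq (h : Tor Δ dΔ b) {y : P} (hy : y ∈ dΔ) (s : ℝ) :
    crd dΔ b (b (y, s)) = (y, Int.fract s) := by
  have h0 : Int.fract s ∈ Ico (0 : ℝ) 1 := ⟨Int.fract_nonneg s, Int.fract_lt_one s⟩
  have h1 : ∃ p ∈ dΔ ×ˢ Ico (0 : ℝ) 1, b p = b (y, s) := ⟨(y, Int.fract s), ⟨hy, h0⟩, h.fract hy s⟩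
  rw [crd, dif_pos h1]
  obtain ⟨h2, h3⟩ := h1.choose_spec
  exact Prod.ext_iff.2 (h.eq' h2.1 hy (h3.trans (h.fract hy s).symm) (by
    rw [abs_lt]; constructor <;> linarith [h2.2.1, h2.2.2, h0.1, h0.2]))

theorem Tor.crd_cont1 (h : Tor Δ dΔ b) :
    ContinuousOn (fun x => (crd dΔ b x).1) (b '' (dΔ ×ˢ univ)) := by
  refine continuousOn_iff_isClosed.2 fun C hC => ⟨b '' ((dΔ ∩ C) ×ˢ Icc 0 1), ?_, ?_⟩
  · exact (((h.ball.isCompact_bdry.inter_right hC).prod isCompact_Icc).image_of_continuousOn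
      (h.cont.mono (prod_mono inter_subset_left (subset_univ _)))).isClosed
  · ext x
    constructor
    · rintro ⟨hx, ⟨y, s⟩, hp, rfl⟩
      rw [mem_preimage, h.crd_eq hp.1] at hx
      exact ⟨⟨(y, Int.fract s), ⟨⟨hp.1, hx⟩, Int.fract_nonneg s, (Int.fract_lt_one s).le⟩,
        h.fract hp.1 s⟩, _, hp, rfl⟩
    · rintro ⟨⟨⟨y, s⟩, hp, rfl⟩, hx⟩
      exact ⟨by rw [mem_preimage, h.crd_eq hp.1.1]; exact hp.1.2, hx⟩

theorem Tor.crd_cont2 (h : Tor Δ dΔ b) :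
    ContinuousOn (fun x => (crd dΔ b x).2) (b '' (dΔ ×ˢ Ioo 0 1)) := by
  refine continuousOn_iff_isClosed.2 fun C hC => ⟨b '' (dΔ ×ˢ (Icc 0 1 ∩ C)), ?_, ?_⟩
  · exact ((h.ball.isCompact_bdry.prod (isCompact_Icc.inter_right hC)).image_of_continuousOn
      (h.cont.mono (prod_mono Subset.rfl (subset_univ _)))).isClosed
  · ext x
    constructor
    · rintro ⟨hx, ⟨y, s⟩, hp, rfl⟩
      rw [mem_preimage, h.crd_eq hp.1, Int.fract_eq_self.2 ⟨hp.2.1.le, hp.2.2⟩] at hx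
      exact ⟨⟨(y, s), ⟨hp.1, Ioo_subset_Icc_self hp.2, hx⟩, rfl⟩, _, hp, rfl⟩
    · rintro ⟨⟨⟨y, s⟩, hp, e⟩, ⟨y', s'⟩, hp', rfl⟩
      refine ⟨?_, _, hp', rfl⟩
      rw [mem_preimage, h.crd_eq hp'.1, Int.fract_eq_self.2 ⟨hp'.2.1.le, hp'.2.2⟩,
        ← (h.eq' hp.1 hp'.1 e (by
          rw [abs_lt]; constructor <;> linarith [hp.2.1.1, hp.2.1.2, hp'.2.1, hp'.2.2])).2]
      exact hp.2.2

theorem norm_P (y : P) : ‖y‖ = max |y 0| |y 1| := by
  refine le_antisymm ((pi_norm_le_iff_of_nonneg (by positivity)).2 fun i => ?_)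
    (max_le (norm_le_pi_norm y 0) (norm_le_pi_norm y 1))
  fin_cases i
  exacts [le_max_left _ _, le_max_right _ _]

theorem lv_cube {c : ℝ} (hc : |c| ≤ 1) {y : P} (hy : y ∈ cube 2) : lv c y ∈ cube 3 := by
  rw [mem_closedBall_zero_iff] at hy ⊢
  refine (pi_norm_le_iff_of_nonneg zero_le_one).2 fun i => ?_
  fin_cases i
  exacts [(norm_le_pi_norm y 0).trans hy, (norm_le_pi_norm y 1).trans hy, hc]

theorem lv_side {c : ℝ} (hc : |c| ≤ 1) {y : P} (hy : y ∈ sph 2) : lv c y ∈ side := by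
  refine ⟨lv_cube hc (sph_subset_cube hy), ?_⟩
  rw [mem_sphere_zero_iff_norm, norm_P] at hy
  rcases max_choice |y 0| |y 1| with h | h
  exacts [Or.inl (h.symm.trans hy), Or.inr (h.symm.trans hy)]

theorem pl_lv (c : ℝ) (K : Set P) : PLOn (lv c) K := pl_pi fun i => by
  fin_cases i
  exacts [pl_apply (plOn_id K) 0, pl_apply (plOn_id K) 1, plOn_const c K]

theorem lv_inj {c : ℝ} {y y' : P} (e : lv c y = lv c y') : y = y' := by
  funext i
  fin_cases i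
  exacts [congrFun e 0, congrFun e 1]

theorem second (hTh : ThickStmt) (h : Tor Δ dΔ b) {W : Set V} (hM : Mf W (b '' (dΔ ×ˢ univ)))
    {d : P → V} (hd : Mer Δ dΔ b W 0 d) :
    ∃ (φ : PLEquiv (sph 2) dΔ) (f : P → V), ContinuousOn f (cube 2) ∧
      MapsTo f (cube 2) (W ∩ (d '' Δ)ᶜ) ∧ ∀ y ∈ sph 2, f y = b (φ.f y, 1 / 2) := by
  have hΔ := h.ball.subset
  have hDT : d '' Δ ∩ b '' (dΔ ×ˢ univ) = d '' dΔ := by
    ext x
    constructor
    · rintro ⟨⟨y, hy, rfl⟩, hx⟩; exact ⟨y, hd.int y hy hx, rfl⟩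
    · rintro ⟨y, hy, rfl⟩; exact ⟨⟨y, hΔ hy, rfl⟩, (y, 0), ⟨hy, trivial⟩, (hd.bd y hy).symm⟩
  obtain ⟨R, e, e1, e2, e3, -⟩ := hTh W _ _ _ univ hM (h.ball.image_injOn hd.pl hd.inj)
    hd.sub.image_subset hDT isOpen_univ (subset_univ _)
  let dE := equivOfInjOn (isBall_iff.1 h.ball).finConv h.ball.isClosed hd.pl hd.inj
  have z1 : |(0 : ℝ)| ≤ 1 := by simp
  have o1 : |(1 : ℝ)| ≤ 1 := by simp
  have m0 : ∀ y ∈ cube 2, e.f (lv 0 y) ∈ d '' Δ := fun y hy => e2.le ⟨_, ⟨lv_cube z1 hy, rfl⟩, rfl⟩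
  have mT : ∀ c, |c| ≤ 1 → ∀ y ∈ sph 2, e.f (lv c y) ∈ b '' (dΔ ×ˢ univ) := fun c hc y hy =>
    (e3.ge ⟨_, lv_side hc hy, rfl⟩).2
  have n1 : ∀ y ∈ cube 2, e.f (lv 1 y) ∉ d '' Δ := fun y hy hx => by
    obtain ⟨z, hz, ez⟩ := e2.ge hx
    have h1 := congrFun (e.injOn hz.1 (lv_cube o1 hy) ez) 2
    rw [show z 2 = 0 from hz.2] at h1
    exact zero_ne_one h1
  have nb : ∀ y ∈ dΔ, ∀ r ∈ Ioo (0 : ℝ) 1, b (y, r) ∉ d '' Δ := fun y hy r hr hx => by
    obtain ⟨y', hy', ey⟩ := hDT.le ⟨hx, _, ⟨hy, trivial⟩, rfl⟩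
    rw [hd.bd y' hy'] at ey
    exact hr.1.ne (h.eq' hy' hy ey (by rw [abs_lt]; constructor <;> linarith [hr.1, hr.2])).2
  have mφ : ∀ y ∈ sph 2, dE.g (e.f (lv 0 y)) ∈ dΔ ∧ e.f (lv 0 y) = b (dE.g (e.f (lv 0 y)), 0) := by
    intro y hy
    obtain ⟨z, hz, ez⟩ := hDT.le ⟨m0 y (sph_subset_cube hy), mT 0 z1 y hy⟩
    have : dE.g (d z) = z := dE.li z (hΔ hz)
    rw [← ez, this]; exact ⟨hz, hd.bd z hz⟩
  obtain ⟨φ, hφ⟩ := exists_equiv_of_bijOn (t := dΔ) (finConv_sphere 2) isClosed_sphere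
    (f := fun y => dE.g (e.f (lv 0 y)))
    (dE.pg.comp (e.pf.comp (pl_lv 0 _) fun y hy => lv_cube z1 (sph_subset_cube hy))
      fun y hy => m0 y (sph_subset_cube hy))
    ⟨fun y hy => (mφ y hy).1, fun y hy y' hy' ey => lv_inj (e.injOn (lv_cube z1 (sph_subset_cube hy))
      (lv_cube z1 (sph_subset_cube hy')) (dE.symm.injOn (m0 y (sph_subset_cube hy))
        (m0 y' (sph_subset_cube hy')) ey)), fun z hz => by
      obtain ⟨h1, h2⟩ := hDT.ge ⟨z, hz, rfl⟩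
      obtain ⟨w, hw, ew⟩ := e2.ge h1
      obtain ⟨w', hw', ew'⟩ := e3.le ⟨ew ▸ e.mf hw.1, h2⟩
      obtain rfl := e.injOn hw'.1 hw.1 (ew'.trans ew.symm)
      have h3 : lv 0 (pr w') = w' := by
        funext i; fin_cases i
        exacts [rfl, rfl, (show w' 2 = 0 from hw.2).symm]
      refine ⟨pr w', ?_, by simp only [h3, ew]; exact dE.li z (hΔ hz)⟩
      have h4 := mem_closedBall_zero_iff.1 hw.1
      have h5 : |w' 0| ≤ 1 := (norm_le_pi_norm w' 0).trans h4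
      have h6 : |w' 1| ≤ 1 := (norm_le_pi_norm w' 1).trans h4
      rw [mem_sphere_zero_iff_norm, norm_P]
      show max |w' 0| |w' 1| = 1
      rcases hw'.2 with h7 | h7
      · rw [h7]; exact max_eq_left h6
      · rw [h7]; exact max_eq_right h5⟩
  -- the homotopy
  have mI : ∀ y ∈ sph 2, e.f (lv 1 y) ∈ b '' (dΔ ×ˢ Ioo 0 1) := fun y hy => by
    obtain ⟨⟨z, r⟩, hp, ep⟩ := mT 1 o1 y hy
    refine ⟨(z, Int.fract r), ⟨hp.1, (Int.fract_nonneg r).lt_of_ne fun h0 => ?_, Int.fract_lt_one r⟩,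
      (h.fract hp.1 r).trans ep⟩
    refine n1 y (sph_subset_cube hy) ⟨z, hΔ hp.1, ?_⟩
    rw [hd.bd z hp.1, ← ep, ← h.fract hp.1 r]
    exact congrArg (fun t => b (z, t)) h0
  have c1 : ∀ x ∈ b '' (dΔ ×ˢ univ), (crd dΔ b x).1 ∈ dΔ := by
    rintro _ ⟨⟨z, r⟩, hp, rfl⟩; rw [h.crd_eq hp.1]; exact hp.1
  have c2 : ∀ x ∈ b '' (dΔ ×ˢ Ioo 0 1), (crd dΔ b x).2 ∈ Ioo (0 : ℝ) 1 ∧ b (crd dΔ b x) = x := by
    rintro _ ⟨⟨z, r⟩, hp, rfl⟩
    rw [h.crd_eq hp.1, Int.fract_eq_self.2 ⟨hp.2.1.le, hp.2.2⟩]; exact ⟨hp.2, rfl⟩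
  set Y : P → P := fun z => (max ‖z‖ (1 / 2))⁻¹ • z with hY
  have Yc : Continuous Y := ((continuous_norm.max continuous_const).inv₀ fun z =>
    (lt_max_of_lt_right (by norm_num)).ne').smul continuous_id
  have Y1 : ∀ z, Y z ∈ cube 2 := fun z => by
    have : 0 < max ‖z‖ (1 / 2) := lt_max_of_lt_right (by norm_num)
    rw [mem_closedBall_zero_iff, norm_smul, norm_inv, Real.norm_of_nonneg this.le, inv_mul_le_iff₀ this,
      mul_one]
    exact le_max_left _ _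
  have Y2 : ∀ z : P, 1 / 2 ≤ ‖z‖ → Y z ∈ sph 2 := fun z hz => by
    rw [mem_sphere_zero_iff_norm, norm_smul, max_eq_left hz, norm_inv, norm_norm,
      inv_mul_cancel₀ (by linarith)]
  have lc : ∀ {c : P → ℝ}, Continuous c → Continuous fun z => lv (c z) (Y z) := fun {c} hc =>
    continuous_pi fun i => by
      fin_cases i
      exacts [(continuous_apply (0 : Fin 2)).comp Yc, (continuous_apply (1 : Fin 2)).comp Yc, hc]
  set F : P → P × ℝ := fun z => ((crd dΔ b (e.f (lv (2 - 2 * ‖z‖) (Y z)))).1,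
    (2 - 2 * ‖z‖) * (crd dΔ b (e.f (lv 1 (Y z)))).2 + (2 * ‖z‖ - 1) / 2) with hF
  set A : Set P := {z | 1 / 2 ≤ ‖z‖ ∧ ‖z‖ ≤ 1} with hA
  have a1 : ∀ z ∈ A, |2 - 2 * ‖z‖| ≤ 1 := fun z hz => by
    rw [abs_le]; constructor <;> linarith [hz.1, hz.2]
  have F1 : ∀ z ∈ A, (F z).1 ∈ dΔ ∧ (F z).2 ∈ Ioo (0 : ℝ) 1 := fun z hz => by
    refine ⟨c1 _ (mT _ (a1 z hz) _ (Y2 z hz.1)), ?_⟩
    obtain ⟨⟨h1, h2⟩, -⟩ := c2 _ (mI _ (Y2 z hz.1))
    have h3 := hz.1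
    have h4 := hz.2
    simp only [hF]
    constructor <;> nlinarith
  have g1 : ContinuousOn (fun z => e.f (lv 1 (Y z))) univ :=
    e.pf.1.comp (lc continuous_const).continuousOn fun z _ => lv_cube o1 (Y1 z)
  have Fc : ContinuousOn F A := by
    refine ContinuousOn.prodMk (h.crd_cont1.comp (e.pf.1.comp (lc (by fun_prop)).continuousOn
      fun z hz => lv_cube (a1 z hz) (Y1 z)) fun z hz => mT _ (a1 z hz) _ (Y2 z hz.1)) ?_
    exact (ContinuousOn.mul (by fun_prop) (h.crd_cont2.comp (g1.mono (subset_univ _))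
      fun z hz => mI _ (Y2 z hz.1))).add (by fun_prop)
  classical
  set f : P → V := fun z => if ‖z‖ ≤ 1 / 2 then e.f (lv 1 (Y z)) else b (F z) with hf
  have f2 : ∀ z ∈ A, f z = b (F z) := fun z hz => by
    simp only [hf]
    split_ifs with h1
    · have h2 : ‖z‖ = 1 / 2 := le_antisymm h1 hz.1
      rw [← (c2 _ (mI _ (Y2 z hz.1))).2]
      simp only [hF, h2]
      norm_num
    · rfl
  refine ⟨φ, f, ?_, fun z hz => ?_, fun y hy => ?_⟩
  · have hc : cube 2 ⊆ closedBall 0 (1 / 2) ∪ A := fun z hz =>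
      (le_total ‖z‖ (1 / 2)).imp mem_closedBall_zero_iff.2 fun h1 => ⟨h1, mem_closedBall_zero_iff.1 hz⟩
    refine ContinuousOn.mono (ContinuousOn.union_of_isClosed ?_ ?_ isClosed_closedBall ?_) hc
    · exact (g1.mono (subset_univ _)).congr fun z hz => if_pos (mem_closedBall_zero_iff.1 hz)
    · exact (h.cont.comp Fc fun z hz => ⟨(F1 z hz).1, trivial⟩).congr f2
    · exact (isClosed_le continuous_const continuous_norm).inter (isClosed_le continuous_norm continuous_const)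
  · by_cases h1 : ‖z‖ ≤ 1 / 2
    · rw [show f z = _ from if_pos h1]
      exact ⟨(e1 (e.mf (lv_cube o1 (Y1 z)))).1, n1 _ (Y1 z)⟩
    · have h2 : z ∈ A := ⟨(not_le.1 h1).le, mem_closedBall_zero_iff.1 hz⟩
      rw [f2 z h2]
      exact ⟨hM.1 ⟨_, ⟨(F1 z h2).1, trivial⟩, rfl⟩, nb _ (F1 z h2).1 _ (F1 z h2).2⟩
  · have h1 : ‖y‖ = 1 := mem_sphere_zero_iff_norm.1 hy
    have h2 : Y y = y := by simp only [hY, h1]; norm_num
    rw [f2 y ⟨by linarith, h1.le⟩, hφ]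
    simp only [hF, h1, h2]
    norm_num
    rw [(mφ y hy).2, h.crd_eq (mφ y hy).1, ← (mφ y hy).2]

end Crest.Agent.X212.Sol49
end

-- ▼ part X212/Sol49/Main

/-!
Row 212, layer T, package SOLID (helper49), part 4: recognition of the solid torus.
-/

set_option autoImplicit false
set_option linter.style.longLine false

open Set Metric Filter Topology

namespace Crest.Agent.X212.Sol49

open Crest.Agent.R096.Ce_537 Crest.Agent.X212.Prd34 Crest.Agent.R096.Bd_416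

theorem alex : Alex := R096.Ar_241.p2_fin

variable {Δ dΔ : Set P} {b : P × ℝ → V}

theorem apart {T B S B' S' : Set V} (hB : IsBall 3 B S) (hB' : IsBall 3 B' S') (hO' : IsOpen (B' \ S'))
    (hd : Disjoint (B \ S) S') (hT' : Disjoint (B' \ S') T) {x : V} (hx : x ∈ B) (hxT : x ∈ T)
    (hxS : x ∉ S') : B ∩ B' ⊆ S := by
  have hfr : frontier B' ⊆ S' := fun x hx => by
    by_contra hn
    exact hx.2 (interior_maximal sdiff_subset hO' ⟨hB'.isClosed.closure_subset hx.1, hn⟩)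
  rcases R096.Ar_241.dichotomy hB.isPreconnected_diff hd hfr with h | h
  · exfalso
    have h1 : B ⊆ B' := by
      rw [← hB.closure_diff]
      exact closure_minimal (h.trans interior_subset) hB'.isClosed
    exact disjoint_left.1 hT' ⟨h1 hx, hxS⟩ hxT
  · intro y hy
    by_contra hn
    exact disjoint_left.1 h ⟨hy.1, hn⟩ (subset_closure hy.2)

/-- one period -/
theorem period (h : Tor Δ dΔ b) {W : Set V} (hW : IsCompact W) (hM : Mf W (b '' (dΔ ×ˢ univ)))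
    {d d' : P → V} (hd : Mer Δ dΔ b W 0 d) (hd' : Mer Δ dΔ b W (1 / 2) d')
    (hdd : ∀ y ∈ Δ, ∀ y' ∈ Δ, d y ≠ d' y') :
    ∃ g : P × ℝ → V, PLOn g (Δ ×ˢ Icc 0 1) ∧ InjOn g (Δ ×ˢ Ico 0 1) ∧ MapsTo g (Δ ×ˢ Icc 0 1) W ∧
      (∀ y ∈ Δ, g (y, 1) = g (y, 0)) ∧ EqOn g b (dΔ ×ˢ Icc 0 1) := by
  classical
  have hd1 : Mer Δ dΔ b W 1 d := ⟨hd.pl, hd.inj, hd.sub, fun y hy => by
    rw [hd.bd y hy, ← h.per hy 0 1]; norm_num, hd.int⟩
  obtain ⟨B, S, e, a1, a2, a3, a4, a5, a6, a7, a8⟩ :=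
    cyl alex h hW hM (s := 0) (t := 1 / 2) (by norm_num) (by norm_num) hd hd' hdd
  obtain ⟨B', S', e', b1, b2, b3, b4, b5, b6, b7, b8⟩ :=
    cyl alex h hW hM (s := 1 / 2) (t := 1) (by norm_num) (by norm_num) hd' hd1
      fun y hy y' hy' e => hdd y' hy' y hy e.symm
  have hΔ := h.ball.subset
  have sT : ∀ s t : ℝ, b '' (dΔ ×ˢ Icc s t) ⊆ b '' (dΔ ×ˢ univ) := fun s t =>
    image_mono (prod_mono Subset.rfl (subset_univ _))
  obtain ⟨y0, hy0⟩ : dΔ.Nonempty := by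
    obtain ⟨a, rfl⟩ := h.ball
    exact (NormedSpace.sphere_nonempty.2 zero_le_one).image _
  have off : ∀ {u : ℝ} {c : P → V}, Mer Δ dΔ b W u c → ∀ r : ℝ, b (y0, r) ∈ c '' Δ →
      ∃ m : ℤ, r - u = m := by
    rintro u c hc r ⟨y, hy, ey⟩
    have h1 := hc.int y hy ⟨(y0, r), ⟨hy0, trivial⟩, ey.symm⟩
    rw [hc.bd y h1] at ey
    exact (h.eq hy0 h1 ey.symm).2
  have nint : ∀ (r : ℝ) (m : ℤ), r = m → -1 < r → r < 1 → r = 0 := fun r m e h1 h2 => by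
    have : m = 0 := by
      rw [e] at h1 h2
      have h3 : -1 < m := by exact_mod_cast h1
      have h4 : m < 1 := by exact_mod_cast h2
      omega
    rw [e, this, Int.cast_zero]
  have i1 : B ∩ B' ⊆ S := by
    refine apart (x := b (y0, 1 / 4)) a3 b3 b5 (disjoint_left.2 fun x hx hx' => ?_) b6 ?_
      ⟨_, ⟨hy0, trivial⟩, rfl⟩ fun hx => ?_
    · rcases b8 hx' with h1 | h1
      exacts [hx.2 (a7 h1.symm), disjoint_left.1 a6 hx (sT _ _ h1)]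
    · have h1 : ((y0, 1 / 4) : P × ℝ) ∈ dΔ ×ˢ Icc (0 : ℝ) (1 / 2) := ⟨hy0, by norm_num, by norm_num⟩
      rw [← a2 h1]; exact e.mf ⟨hΔ hy0, h1.2⟩
    · rcases b8 hx with (h1 | h1) | ⟨⟨y, r⟩, hp, h1⟩
      · obtain ⟨m, hm⟩ := off hd' _ h1
        linarith [nint _ m hm (by norm_num) (by norm_num)]
      · obtain ⟨m, hm⟩ := off hd _ h1
        linarith [nint _ m hm (by norm_num) (by norm_num)]
      · obtain ⟨-, m, hm⟩ := h.eq hp.1 hy0 h1
        linarith [nint _ m hm (by linarith [hp.2.1]) (by linarith [hp.2.2]), hp.2.1]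
  have i2 : B' ∩ B ⊆ S' := by
    refine apart (x := b (y0, 3 / 4)) b3 a3 a5 (disjoint_left.2 fun x hx hx' => ?_) a6 ?_
      ⟨_, ⟨hy0, trivial⟩, rfl⟩ fun hx => ?_
    · rcases a8 hx' with h1 | h1
      exacts [hx.2 (b7 h1.symm), disjoint_left.1 b6 hx (sT _ _ h1)]
    · have h1 : ((y0, 3 / 4) : P × ℝ) ∈ dΔ ×ˢ Icc (1 / 2 : ℝ) 1 := ⟨hy0, by norm_num, by norm_num⟩
      rw [← b2 h1]; exact e'.mf ⟨hΔ hy0, h1.2⟩
    · rcases a8 hx with (h1 | h1) | ⟨⟨y, r⟩, hp, h1⟩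
      · obtain ⟨m, hm⟩ := off hd _ h1
        linarith [nint _ m hm (by norm_num) (by norm_num)]
      · obtain ⟨m, hm⟩ := off hd' _ h1
        linarith [nint _ m hm (by norm_num) (by norm_num)]
      · obtain ⟨-, m, hm⟩ := h.eq hp.1 hy0 h1
        linarith [nint _ m hm (by linarith [hp.2.1]) (by linarith [hp.2.2]), hp.2.2]
  have i3 : B ∩ B' ⊆ d '' Δ ∪ d' '' Δ := fun x hx => by
    rcases a8 (i1 hx) with h1 | ⟨⟨y, r⟩, hp, h1⟩
    · exact h1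
    rcases b8 (i2 hx.symm) with h2 | ⟨⟨y', r'⟩, hp', h2⟩
    · exact h2.symm
    obtain ⟨-, m, hm⟩ := h.eq hp.1 hp'.1 (h1.trans h2.symm)
    rcases hp.2.1.eq_or_lt with h3 | h3
    · exact Or.inl ⟨y, hΔ hp.1, by rw [hd.bd y hp.1, ← h1]; exact congrArg (fun t => b (y, t)) h3⟩
    · have h4 := nint _ m hm (by linarith [hp'.2.2]) (by linarith [hp.2.2, hp'.2.1])
      have h5 : 1 / 2 = r := by linarith [hp.2.2, hp'.2.1]
      exact Or.inr ⟨y, hΔ hp.1, by rw [hd'.bd y hp.1, ← h1]; exact congrArg (fun t => b (y, t)) h5⟩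
  set g : P × ℝ → V := fun p => if p.2 ≤ 1 / 2 then e.f p else e'.f p with hg
  have g1 : EqOn g e.f (Δ ×ˢ Icc 0 (1 / 2)) := fun p hp => if_pos hp.2.2
  have g2 : EqOn g e'.f (Δ ×ˢ Icc (1 / 2) 1) := by
    rintro ⟨y, r⟩ hp
    simp only [hg]
    split_ifs with h1
    · obtain rfl : r = 1 / 2 := le_antisymm h1 hp.2.1
      rw [(a1 y hp.1).2, (b1 y hp.1).1]
    · rfl
  have cs : ∀ p ∈ Δ ×ˢ Icc (0 : ℝ) 1, p ∈ Δ ×ˢ Icc (0 : ℝ) (1 / 2) ∨ p ∈ Δ ×ˢ Icc (1 / 2 : ℝ) 1 :=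
    fun p hp => (le_total p.2 (1 / 2)).imp (fun h1 => ⟨hp.1, hp.2.1, h1⟩) fun h1 => ⟨hp.1, h1, hp.2.2⟩
  have mix : ∀ p ∈ Δ ×ˢ Icc (0 : ℝ) (1 / 2), ∀ p' ∈ Δ ×ˢ Icc (1 / 2 : ℝ) 1, p'.2 < 1 →
      e.f p = e'.f p' → p = p' := by
    intro p hp p' hp' h1 h2
    rcases i3 ⟨e.mf hp, h2 ▸ e'.mf hp'⟩ with ⟨y, hy, h3⟩ | ⟨y, hy, h3⟩
    · have := e'.injOn hp' (show ((y, 1) : P × ℝ) ∈ _ from ⟨hy, by norm_num, le_rfl⟩)
        (by rw [← h2, ← h3, (b1 y hy).2])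
      rw [this] at h1; exact absurd h1 (lt_irrefl _)
    · rw [e.injOn hp (show ((y, 1 / 2) : P × ℝ) ∈ _ from ⟨hy, by norm_num, le_rfl⟩)
        (by rw [← h3, (a1 y hy).2]),
        e'.injOn hp' (show ((y, 1 / 2) : P × ℝ) ∈ _ from ⟨hy, le_rfl, by norm_num⟩)
        (by rw [← h2, ← h3, (b1 y hy).1])]
  refine ⟨g, ((e.pf.congr g1).union (e'.pf.congr g2) (h.ball.isClosed.prod isClosed_Icc)
    (h.ball.isClosed.prod isClosed_Icc)).mono cs, fun p hp p' hp' h1 => ?_, fun p hp => ?_,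
    fun y hy => ?_, fun p hp => ?_⟩
  · rcases cs p ⟨hp.1, Ico_subset_Icc_self hp.2⟩ with h2 | h2 <;>
      rcases cs p' ⟨hp'.1, Ico_subset_Icc_self hp'.2⟩ with h3 | h3
    · rw [g1 h2, g1 h3] at h1; exact e.injOn h2 h3 h1
    · rw [g1 h2, g2 h3] at h1; exact mix p h2 p' h3 hp'.2.2 h1
    · rw [g2 h2, g1 h3] at h1; exact (mix p' h3 p h2 hp.2.2 h1.symm).symm
    · rw [g2 h2, g2 h3] at h1; exact e'.injOn h2 h3 h1
  · rcases cs p hp with h2 | h2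
    · rw [g1 h2]; exact a4 (e.mf h2)
    · rw [g2 h2]; exact b4 (e'.mf h2)
  · rw [g2 (x := (y, 1)) ⟨hy, by norm_num, le_rfl⟩, g1 (x := (y, 0)) ⟨hy, le_rfl, by norm_num⟩,
      (a1 y hy).1, (b1 y hy).2]
  · rcases cs p ⟨hΔ hp.1, hp.2⟩ with h2 | h2
    · rw [g1 h2]; exact a2 ⟨hp.1, h2.2⟩
    · rw [g2 h2]; exact b2 ⟨hp.1, h2.2⟩

/-- **recognition of the solid torus** -/
theorem solid (hD : DehnStmt) (hTh : ThickStmt) : SolidStmt := by
  intro Δ dΔ b W f hΔ hb hfib hW hM hf hfW hfb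
  have h : Tor Δ dΔ b := ⟨hΔ, hb, hfib⟩
  have mT : ∀ s, ∀ y ∈ dΔ, b (y, s) ∈ b '' (dΔ ×ˢ univ) := fun s y hy => ⟨_, ⟨hy, trivial⟩, rfl⟩
  obtain ⟨d, hd, -⟩ : ∃ d, Mer Δ dΔ b W 0 d ∧ MapsTo d Δ W := by
    obtain ⟨a, rfl⟩ := hΔ
    exact mer_of_dehn hD h hM Subset.rfl inter_subset_right (mT 0) (a.restrImage sph_subset_cube)
      (hf.comp a.pf.1 a.mf) (hfW.comp a.mf) fun y hy => hfb _ ⟨y, hy, rfl⟩
  obtain ⟨φ, f', f1, f2, f3⟩ := second hTh h hM hd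
  have hDc : IsClosed (d '' Δ) := (hΔ.isCompact.image_of_continuousOn hd.pl.1).isClosed
  obtain ⟨d', hd', hd''⟩ := mer_of_dehn hD h (mf_inter hM hDc.isOpen_compl) inter_subset_left
    (fun x hx => ⟨hx.2, hx.1.2⟩) (s := 1 / 2) (fun y hy => ⟨mT _ y hy, by
      rintro ⟨z, hz, ez⟩
      have h1 := hd.int z hz (ez ▸ mT _ y hy)
      rw [hd.bd z h1] at ez
      have := (h.eq' h1 hy ez (by norm_num [abs_lt])).2
      norm_num at this⟩) φ f1 f2 f3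
  obtain ⟨g, g1, g2, g3, g4, g5⟩ := period h hW hM hd hd' fun y hy y' hy' e =>
    (hd'' hy').2 ⟨y, hy, e⟩
  set G : P × ℝ → V := fun p => g (p.1, Int.fract p.2) with hG
  have fr : ∀ s : ℝ, Int.fract s ∈ Ico (0 : ℝ) 1 := fun s => ⟨Int.fract_nonneg s, Int.fract_lt_one s⟩
  have G1 : ∀ n : ℤ, PLOn G (Δ ×ˢ Icc (n : ℝ) (n + 1)) := fun n => by
    refine (g1.comp (pl_pair (pl_fst (plOn_id _)) (pl_sub_const (pl_snd (plOn_id _)) (n : ℝ)))
      fun p hp => ⟨hp.1, by linarith [hp.2.1], by linarith [hp.2.2]⟩).congr ?_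
    rintro ⟨y, s⟩ hp
    rcases hp.2.2.eq_or_lt with h1 | h1
    · have h2 : s = ((n + 1 : ℤ) : ℝ) := by push_cast; exact h1
      have h3 : s - n = 1 := by rw [h2]; push_cast; ring
      show g (y, Int.fract s) = g (y, s - n)
      rw [h3, g4 y hp.1, h2, Int.fract_intCast]
    · show g (y, Int.fract s) = g (y, s - n)
      rw [Int.fract, Int.floor_eq_iff.2 ⟨hp.2.1, h1⟩]
  have G2 : ∀ n : ℤ, PLOn G (Δ ×ˢ Icc ((n : ℝ) - 1) (n + 1)) := fun n => by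
    refine ((G1 (n - 1)).union (G1 n) (hΔ.isClosed.prod isClosed_Icc)
      (hΔ.isClosed.prod isClosed_Icc)).mono fun p hp => ?_
    push_cast
    exact (le_total p.2 n).imp (fun h1 => ⟨hp.1, hp.2.1, by linarith⟩) fun h1 => ⟨hp.1, h1, hp.2.2⟩
  have G3 : ∀ p ∈ Δ ×ˢ (univ : Set ℝ), ∀ p' ∈ Δ ×ˢ (univ : Set ℝ),
      G p = G p' ↔ p.1 = p'.1 ∧ ∃ m : ℤ, p.2 - p'.2 = m := fun p hp p' hp' => by
    constructor
    · intro e
      have h1 := Prod.ext_iff.1 (g2 (show (p.1, Int.fract p.2) ∈ _ from ⟨hp.1, fr _⟩)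
        (show (p'.1, Int.fract p'.2) ∈ _ from ⟨hp'.1, fr _⟩) e)
      exact ⟨h1.1, Int.fract_eq_fract.1 h1.2⟩
    · rintro ⟨h1, h2⟩
      simp only [hG, h1, Int.fract_eq_fract.2 h2]
  have G4 : EqOn G b (dΔ ×ˢ univ) := fun p hp =>
    (g5 (x := (p.1, Int.fract p.2)) ⟨hp.1, Ico_subset_Icc_self (fr _)⟩).trans (h.fract hp.1 p.2)
  have G5 : MapsTo G (Δ ×ˢ univ) W := fun p hp => g3 ⟨hp.1, Ico_subset_Icc_self (fr _)⟩
  refine ⟨G, fun p hp => ?_, G4, G3, G5.image_subset.antisymm ?_⟩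
  · have h1 := Int.floor_le p.2
    have h2 := Int.lt_floor_add_one p.2
    refine ⟨min 1 (⌊p.2⌋ + 1 - p.2), lt_min one_pos (by linarith), (G2 ⌊p.2⌋).mono fun q hq => ?_⟩
    have h3 : |q.2 - p.2| < min 1 (⌊p.2⌋ + 1 - p.2) :=
      (le_max_right _ _).trans_lt (show max (dist q.1 p.1) (dist q.2 p.2) < _ from hq.1)
    rw [lt_min_iff, abs_lt, abs_lt] at h3
    exact ⟨hq.2.1, by linarith [h3.1.1], by linarith [h3.2.2]⟩
  · have oΔ : IsOpen (Δ \ dΔ) := by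
      obtain ⟨a, ha⟩ := hΔ
      rw [R096.Cb_609.diff_eq_image a ha]
      exact R105.Iod1_690.isOpen_image_fd rfl isOpen_ball (a.pf.1.mono ball_subset_closedBall)
        (a.injOn.mono ball_subset_closedBall)
    have o1 : ∀ c : ℝ, IsOpen (G '' ((Δ \ dΔ) ×ˢ Ioo c (c + 1))) := fun c => by
      have h1 := Int.floor_le c
      have h2 := Int.lt_floor_add_one c
      refine R105.Iod1_690.isOpen_image_fd (by simp) (oΔ.prod isOpen_Ioo)
        ((G2 (⌊c⌋ + 1)).1.mono fun p hp => ⟨hp.1.1, ?_, ?_⟩) fun p hp p' hp' e => ?_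
      · push_cast; linarith [hp.2.1]
      · push_cast; linarith [hp.2.2]
      · obtain ⟨h3, m, hm⟩ := (G3 p ⟨hp.1.1, trivial⟩ p' ⟨hp'.1.1, trivial⟩).1 e
        have h4 : (-1 : ℝ) < m := by linarith [hp.2.1, hp'.2.2]
        have h5 : (m : ℝ) < 1 := by linarith [hp.2.2, hp'.2.1]
        have h6 : m = 0 := by
          have h7 : -1 < m := by exact_mod_cast h4
          have h8 : m < 1 := by exact_mod_cast h5
          omega
        rw [h6, Int.cast_zero, sub_eq_zero] at hm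
        exact Prod.ext h3 hm
    have o2 : IsOpen (G '' ((Δ \ dΔ) ×ˢ univ)) := isOpen_iff_mem_nhds.2 (by
      rintro _ ⟨p, hp, rfl⟩
      exact mem_of_superset ((o1 (p.2 - 1 / 2)).mem_nhds ⟨p, ⟨hp.1, by linarith, by linarith⟩, rfl⟩)
        (image_mono (prod_mono Subset.rfl (subset_univ _))))
    have c1 : IsClosed (G '' (Δ ×ˢ univ)) := by
      have : G '' (Δ ×ˢ univ) = G '' (Δ ×ˢ Icc ((0 : ℤ) : ℝ) ((0 : ℤ) + 1)) := by
        refine Subset.antisymm ?_ (image_mono (prod_mono Subset.rfl (subset_univ _)))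
        rintro _ ⟨p, hp, rfl⟩
        refine ⟨(p.1, Int.fract p.2), ⟨hp.1, ?_, ?_⟩, by simp only [hG, Int.fract_fract]⟩
        · simp
        · simpa using (fr p.2).2.le
      rw [this]
      exact ((hΔ.isCompact.prod isCompact_Icc).image_of_continuousOn (G1 0).1).isClosed
    obtain ⟨y0, hy0⟩ := hΔ.nonempty_diff
    have h1 : W \ b '' (dΔ ×ˢ univ) ⊆ G '' ((Δ \ dΔ) ×ˢ univ) := by
      refine (mf_in hM hW.isClosed h.conn).subset_left_of_subset_union o2 c1.isOpen_compl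
        (disjoint_left.2 fun x hx hx' => hx' (image_mono (prod_mono sdiff_subset Subset.rfl) hx))
        (fun x hx => ?_) ⟨G (y0, 0), ⟨G5 ⟨hy0.1, trivial⟩, ?_⟩, _, ⟨hy0, trivial⟩, rfl⟩
      · by_cases h2 : x ∈ G '' (Δ ×ˢ univ)
        · obtain ⟨p, hp, rfl⟩ := h2
          exact Or.inl ⟨p, ⟨⟨hp.1, fun h3 => hx.2 ⟨p, ⟨h3, trivial⟩, (G4 ⟨h3, trivial⟩).symm⟩⟩,
            trivial⟩, rfl⟩
        · exact Or.inr h2
      · rintro ⟨p, hp, ep⟩
        rw [← G4 hp] at ep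
        have h3 : p.1 = y0 := ((G3 p ⟨hΔ.subset hp.1, trivial⟩ _ ⟨hy0.1, trivial⟩).1 ep).1
        exact hy0.2 (h3 ▸ hp.1)
    intro x hx
    by_cases h2 : x ∈ b '' (dΔ ×ˢ univ)
    · obtain ⟨p, hp, rfl⟩ := h2
      exact ⟨p, ⟨hΔ.subset hp.1, trivial⟩, G4 hp⟩
    · exact image_mono (prod_mono sdiff_subset Subset.rfl) (h1 ⟨hx, h2⟩)

end Crest.Agent.X212.Sol49
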